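import Mathlib
import Vale.Agent.P136.Full.Alg.Pd

/-!
# P136: fields depending on a complex parameter

Slices of a jointly smooth field, the Cauchy–Riemann defect in the parameter, and the derivative of
an integral over a bounded open set.
-/

open MeasureTheory Filter Set Metric Complex
open scoped ContDiff Topology

namespace Vale.Agent.P136.Full

noncomputable section

variable {E F : Type*} [NormedAddCommGroup E] [NormedSpace ℂ E] [NormedAddCommGroup F]
  [NormedSpace ℂ F]

/-- The slice at a parameter. -/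
def sl (Y : ℂ × Space → E) (z : ℂ) : Space → E := fun x => Y (z, x)

/-- The Cauchy–Riemann defect of a function of a complex parameter. -/
def cr (f : ℂ → E) (z : ℂ) : E := fderiv ℝ f z I - I • fderiv ℝ f z 1

/-- The defect of a field in its parameter. -/
def crP (Y : ℂ × Space → E) (p : ℂ × Space) : E := cr (fun w => Y (w, p.2)) p.1

theorem contDiff_sl {Y : ℂ × Space → E} (hY : ContDiff ℝ ∞ Y) (z : ℂ) : ContDiff ℝ ∞ (sl Y z) :=
  hY.comp (contDiff_const.prodMk contDiff_id)

theorem contDiff_par {Y : ℂ × Space → E} (hY : ContDiff ℝ ∞ Y) (x : Space) :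
    ContDiff ℝ ∞ fun z => Y (z, x) :=
  hY.comp (contDiff_id.prodMk contDiff_const)

theorem pd_sl_eq {Y : ℂ × Space → E} (hY : ContDiff ℝ ∞ Y) (i : Fin 3) (z : ℂ) (x : Space) :
    pd i (sl Y z) x = fderiv ℝ Y (z, x) (0, Pi.single i 1) := by
  have h := ((hY.differentiable (by simp) (z, x)).hasFDerivAt.comp x
    (hasFDerivAt_prodMk_right z x)).fderiv
  rw [pd, show sl Y z = Y ∘ fun y => (z, y) from rfl, h]
  simp

theorem fderiv_par_eq {Y : ℂ × Space → E} (hY : ContDiff ℝ ∞ Y) (v : ℂ) (z : ℂ) (x : Space) :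
    fderiv ℝ (fun w => Y (w, x)) z v = fderiv ℝ Y (z, x) (v, 0) := by
  have h := ((hY.differentiable (by simp) (z, x)).hasFDerivAt.comp z
    (hasFDerivAt_prodMk_left (𝕜 := ℝ) z x)).fderiv
  rw [show (fun w => Y (w, x)) = Y ∘ fun w => (w, x) from rfl, h]
  simp

theorem crP_eq {Y : ℂ × Space → E} (hY : ContDiff ℝ ∞ Y) :
    crP Y = fun p => fderiv ℝ Y p (I, 0) - I • fderiv ℝ Y p (1, 0) := by
  funext p
  simp only [crP, cr, fderiv_par_eq hY]

theorem contDiff_crP {Y : ℂ × Space → E} (hY : ContDiff ℝ ∞ Y) : ContDiff ℝ ∞ (crP Y) := by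
  rw [crP_eq hY]
  have h := hY.fderiv_right (m := ∞) (by simp)
  exact (h.clm_apply contDiff_const).sub ((h.clm_apply contDiff_const).const_smul I)

theorem contDiff_pd_sl {Y : ℂ × Space → E} (hY : ContDiff ℝ ∞ Y) (i : Fin 3) :
    ContDiff ℝ ∞ fun p : ℂ × Space => pd i (sl Y p.1) p.2 := by
  simp only [pd_sl_eq hY]
  exact (hY.fderiv_right (m := ∞) (by simp)).clm_apply contDiff_const

theorem contDiff_Dth_sl {θ : ℂ → C3} (hθ : ContDiff ℝ ∞ θ) {Y : ℂ × Space → E}
    (hY : ContDiff ℝ ∞ Y) : ContDiff ℝ ∞ fun p : ℂ × Space => Dth (θ p.1) (sl Y p.1) p.2 :=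
  ContDiff.sum fun i _ => (((contDiff_apply ℝ ℂ i).comp hθ).comp contDiff_fst).smul
    (contDiff_pd_sl hY i)

/-- The defect commutes with the coordinate derivatives. -/
theorem cr_pd_sl {Y : ℂ × Space → E} (hY : ContDiff ℝ ∞ Y) (i : Fin 3) (z : ℂ) (x : Space) :
    cr (fun w => pd i (sl Y w) x) z = pd i (sl (crP Y) z) x := by
  have h1 := hY.fderiv_right (m := ∞) (by simp)
  have hd : DifferentiableAt ℝ (fderiv ℝ Y) (z, x) := h1.differentiable (by simp) (z, x)
  have hs := hY.contDiffAt.isSymmSndFDerivAt (x := (z, x))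
    (by simp only [minSmoothness_of_isRCLikeNormedField]; exact WithTop.coe_le_coe.2 le_top)
  have key : ∀ (w : ℂ × Space) (q : ℂ × Space),
      fderiv ℝ (fun p => fderiv ℝ Y p q) (z, x) w = fderiv ℝ (fderiv ℝ Y) (z, x) w q := by
    intro w q
    rw [fderiv_clm_apply hd (differentiableAt_const _)]
    simp
  have hg : ∀ q, ContDiff ℝ ∞ fun p => fderiv ℝ Y p q := fun q => h1.clm_apply contDiff_const
  rw [pd_sl_eq (contDiff_crP hY), crP_eq hY, cr]
  simp only [pd_sl_eq hY]
  rw [fderiv_par_eq (hg _) I z x, fderiv_par_eq (hg _) 1 z x, key, key,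
    fderiv_fun_sub ((hg _).differentiable (by simp) _)
      (((hg _).const_smul I).differentiable (by simp) _),
    fderiv_fun_const_smul ((hg _).differentiable (by simp) _) I]
  simp only [sub_apply, smul_apply, key]
  rw [hs.eq (0, Pi.single i 1) (I, 0), hs.eq (0, Pi.single i 1) (1, 0)]

/-! ### Rules for the defect -/

theorem cr_congr {f g : ℂ → E} {z : ℂ} (h : f =ᶠ[𝓝 z] g) : cr f z = cr g z := by
  simp [cr, h.fderiv_eq]

theorem cr_const (c : E) (z : ℂ) : cr (fun _ => c) z = 0 := by simp [cr]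

theorem cr_holo {f : ℂ → E} {z : ℂ} (hf : DifferentiableAt ℂ f z) : cr f z = 0 :=
  sub_eq_zero.2 (differentiableAt_complex_iff_differentiableAt_real.1 hf).2

theorem cr_add {f g : ℂ → E} {z : ℂ} (hf : DifferentiableAt ℝ f z) (hg : DifferentiableAt ℝ g z) :
    cr (fun w => f w + g w) z = cr f z + cr g z := by
  simp only [cr, fderiv_fun_add hf hg, add_apply, smul_add]; abel

theorem cr_sub {f g : ℂ → E} {z : ℂ} (hf : DifferentiableAt ℝ f z) (hg : DifferentiableAt ℝ g z) :
    cr (fun w => f w - g w) z = cr f z - cr g z := by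
  simp only [cr, fderiv_fun_sub hf hg, sub_apply, smul_sub]; abel

theorem cr_sum {ι : Type*} (s : Finset ι) {f : ι → ℂ → E} {z : ℂ}
    (h : ∀ k ∈ s, DifferentiableAt ℝ (f k) z) :
    cr (fun w => ∑ k ∈ s, f k w) z = ∑ k ∈ s, cr (f k) z := by
  simp [cr, fderiv_fun_sum h, Finset.smul_sum, Finset.sum_sub_distrib]

theorem cr_smul {a : ℂ → ℂ} {f : ℂ → E} {z : ℂ} (ha : DifferentiableAt ℝ a z)
    (hf : DifferentiableAt ℝ f z) :
    cr (fun w => a w • f w) z = cr a z • f z + a z • cr f z := by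
  simp only [cr, fderiv_fun_smul ha hf, add_apply, smul_apply,
    ContinuousLinearMap.smulRight_apply, smul_eq_mul, sub_smul, smul_add, smul_sub, smul_smul,
    mul_comm (a z) I]
  module

theorem cr_clm (T : E →L[ℂ] F) {f : ℂ → E} {z : ℂ} (hf : DifferentiableAt ℝ f z) :
    cr (fun w => T (f w)) z = T (cr f z) := by
  have h := ((T.restrictScalars ℝ).hasFDerivAt.comp z hf.hasFDerivAt).fderiv
  simp only [cr]
  rw [show (fun w => T (f w)) = (T.restrictScalars ℝ) ∘ f from rfl, h]
  simp

/-- Complex linear combinations with holomorphic coefficients. -/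
theorem cr_sum_smul_holo {ι : Type*} (s : Finset ι) {a : ι → ℂ → ℂ} {f : ι → ℂ → E} {z : ℂ}
    (ha : ∀ k ∈ s, DifferentiableAt ℂ (a k) z) (hf : ∀ k ∈ s, DifferentiableAt ℝ (f k) z) :
    cr (fun w => ∑ k ∈ s, a k w • f k w) z = ∑ k ∈ s, a k z • cr (f k) z := by
  rw [cr_sum s (f := fun k w => a k w • f k w)
    fun k hk => ((ha k hk).restrictScalars ℝ).fun_smul (hf k hk)]
  refine Finset.sum_congr rfl fun k hk => ?_
  rw [cr_smul ((ha k hk).restrictScalars ℝ) (hf k hk), cr_holo (ha k hk), zero_smul, zero_add]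

/-! ### Integrals -/

/-- Differentiation of an integral in the parameter. -/
theorem hasFDerivAt_integral {Ω : Set Space} (hb : Bornology.IsBounded Ω) (hΩ : MeasurableSet Ω)
    {ψ : ℂ × Space → ℂ} (hψ : ContDiff ℝ ∞ ψ) (z : ℂ) :
    HasFDerivAt (fun w => ∫ x in Ω, ψ (w, x))
      (∫ x in Ω, (fderiv ℝ ψ (z, x)).comp (ContinuousLinearMap.inl ℝ ℂ Space)) z := by
  have hc : Continuous fun p : ℂ × Space =>
      (fderiv ℝ ψ p).comp (ContinuousLinearMap.inl ℝ ℂ Space) :=
    (hψ.continuous_fderiv (by simp)).clm_comp continuous_const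
  obtain ⟨C, hC⟩ := ((isCompact_closedBall z 1).prod hb.isCompact_closure).exists_bound_of_continuousOn
    hc.continuousOn
  have hint : ∀ {G : Type} [NormedAddCommGroup G] {f : Space → G}, Continuous f →
      IntegrableOn f Ω := fun hf =>
    (hf.continuousOn.integrableOn_compact hb.isCompact_closure).mono_set subset_closure
  refine hasFDerivAt_integral_of_dominated_of_fderiv_le (𝕜 := ℝ) (bound := fun _ => C)
    (F := fun w x => ψ (w, x))
    (F' := fun w x => (fderiv ℝ ψ (w, x)).comp (ContinuousLinearMap.inl ℝ ℂ Space))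
    (closedBall_mem_nhds z one_pos)
    (Eventually.of_forall fun w =>
      (hψ.continuous.comp (Continuous.prodMk_right w)).aestronglyMeasurable)
    (hint (hψ.continuous.comp (Continuous.prodMk_right z)))
    (hc.comp (Continuous.prodMk_right z)).aestronglyMeasurable
    ?_ (hint continuous_const) (ae_of_all _ fun x w _ => ?_)
  · filter_upwards [ae_restrict_mem hΩ] with x hx w hw using hC (w, x) ⟨hw, subset_closure hx⟩
  · exact (hψ.differentiable (by simp) (w, x)).hasFDerivAt.comp w (hasFDerivAt_prodMk_left w x)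

/-- The defect of an integral. -/
theorem cr_integral {Ω : Set Space} (hb : Bornology.IsBounded Ω) (hΩ : MeasurableSet Ω)
    {ψ : ℂ × Space → ℂ} (hψ : ContDiff ℝ ∞ ψ) (z : ℂ) :
    cr (fun w => ∫ x in Ω, ψ (w, x)) z = ∫ x in Ω, crP ψ (z, x) := by
  have hc : Continuous fun p : ℂ × Space =>
      (fderiv ℝ ψ p).comp (ContinuousLinearMap.inl ℝ ℂ Space) :=
    (hψ.continuous_fderiv (by simp)).clm_comp continuous_const
  have hi : IntegrableOn (fun x => (fderiv ℝ ψ (z, x)).comp (ContinuousLinearMap.inl ℝ ℂ Space))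
      Ω := ((hc.comp (Continuous.prodMk_right z)).continuousOn.integrableOn_compact
      hb.isCompact_closure).mono_set subset_closure
  simp only [cr, (hasFDerivAt_integral hb hΩ hψ z).fderiv, crP_eq hψ,
    ContinuousLinearMap.integral_apply hi, smul_eq_mul, ← integral_const_mul]
  rw [← integral_sub (hi.apply_continuousLinearMap I)
    ((hi.apply_continuousLinearMap 1).const_mul I)]
  simp

/-- A smooth nonnegative function vanishing exactly on a closed set. -/
theorem exists_zero_set {G : Type*} [NormedAddCommGroup G] [NormedSpace ℝ G]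
    [FiniteDimensional ℝ G] {s : Set G} (hs : IsClosed s) :
    ∃ χ : G → ℝ, ContDiff ℝ ∞ χ ∧ (∀ x, 0 ≤ χ x) ∧ ∀ x, x ∈ s ↔ χ x = 0 := by
  obtain ⟨χ, hsup, hsm, hran⟩ := hs.isOpen_compl.exists_contDiff_support_eq (n := ⊤)
  refine ⟨χ, hsm, fun x => (hran ⟨x, rfl⟩).1, fun x => ⟨fun hx => ?_, fun hx => ?_⟩⟩
  · by_contra h
    have : x ∈ Function.support χ := h
    rw [hsup] at this
    exact this hx
  · by_contra h
    have : x ∈ Function.support χ := by rw [hsup]; exact h
    exact this hx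

end

end Vale.Agent.P136.Full
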