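import Mathlib
import Vale.Agent.P136.Full.Spec
import Vale.Agent.P136.Full.Alg.AmatCLM
import Vale.Agent.P136.Full.Gauge.Slice

/-!
# P136: charts of null vectors and the amplitude systems along them
-/

open Filter Set Metric Complex
open scoped ContDiff Topology

namespace Vale.Agent.P136.Full

noncomputable section

/-! ### Complex-linear maps depending smoothly on a parameter -/

theorem contDiff_clm_complex {P : Type*} [NormedAddCommGroup P] [NormedSpace ℝ P]
    {f : P → Amp →L[ℂ] Amp} (h : ∀ v, ContDiff ℝ ∞ fun p => f p v) : ContDiff ℝ ∞ f := by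
  classical
  set b := Module.finBasis ℂ Amp
  have e : f = fun p => ∑ k, ((ContinuousLinearMap.smulRightL ℂ Amp Amp
      (LinearMap.toContinuousLinearMap (b.coord k))).restrictScalars ℝ) (f p (b k)) := by
    funext p
    refine ContinuousLinearMap.ext fun v => ?_
    conv_lhs => rw [← b.sum_repr v, map_sum]
    simp [-Module.Basis.sum_repr]
  rw [e]
  exact ContDiff.sum fun k _ => (ContinuousLinearMap.contDiff _).comp (h (b k))

namespace Moduli

variable (M : Moduli)

theorem contDiff_amat {P : Type*} [NormedAddCommGroup P] [NormedSpace ℝ P] {θ : P → C3}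
    {x : P → Space} {Y : P → Amp} (hθ : ContDiff ℝ ∞ θ) (hx : ContDiff ℝ ∞ x)
    (hY : ContDiff ℝ ∞ Y) : ContDiff ℝ ∞ fun p => M.amat (θ p) (x p) (Y p) := by
  have h1 : ∀ i, ContDiff ℝ ∞ fun p => pd i M.muC (x p) := fun i =>
    (contDiff_pd M.contDiff_muC i).comp hx
  have h2 : ∀ i, ContDiff ℝ ∞ fun p => pd i M.AC (x p) := fun i =>
    (contDiff_pd M.contDiff_AC i).comp hx
  have h3 : ∀ i j, ContDiff ℝ ∞ fun p => pd j (pd i M.mC) (x p) := fun i j =>
    (contDiff_pd (contDiff_pd M.contDiff_mC i) j).comp hx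
  have h4 : ContDiff ℝ ∞ fun p => M.muC (x p) := M.contDiff_muC.comp hx
  have h5 : ContDiff ℝ ∞ fun p => M.AC (x p) := M.contDiff_AC.comp hx
  have hθi : ∀ i, ContDiff ℝ ∞ fun p => θ p i := fun i => (contDiff_apply ℝ ℂ i).comp hθ
  have hW : ∀ i, ContDiff ℝ ∞ fun p => (Y p).1 i := fun i => (contDiff_apply ℝ ℂ i).comp hY.fst
  have hP : ContDiff ℝ ∞ fun p => (Y p).2 := hY.snd
  have d1 : ContDiff ℝ ∞ fun p => Dth (θ p) M.muC (x p) :=
    ContDiff.sum fun i _ => (hθi i).smul (h1 i)
  have d2 : ContDiff ℝ ∞ fun p => Dth (θ p) M.AC (x p) :=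
    ContDiff.sum fun i _ => (hθi i).smul (h2 i)
  have i1 : ContDiff ℝ ∞ fun p => (2 * M.muC (x p))⁻¹ :=
    (contDiff_const.mul h4).inv fun p => mul_ne_zero two_ne_zero (M.muC_ne _)
  have i2 : ContDiff ℝ ∞ fun p => (M.muC (x p))⁻¹ := h4.inv fun p => M.muC_ne _
  have i3 : ContDiff ℝ ∞ fun p => (M.AC (x p) + M.muC (x p))⁻¹ :=
    (h5.add h4).inv fun p => M.AC_add_muC_ne _
  simp only [amat, hessVec, hess, grad, bdot, Fin.sum_univ_three, div_eq_mul_inv]
  refine ContDiff.prodMk (contDiff_pi.2 fun i => ?_) ?_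
  · simp only [Pi.sub_apply, Pi.smul_apply, smul_eq_mul]
    fun_prop
  · fun_prop

theorem contDiff_amatT {P : Type*} [NormedAddCommGroup P] [NormedSpace ℝ P] {θ : P → C3}
    {x : P → Space} {Y : P → Amp} (hθ : ContDiff ℝ ∞ θ) (hx : ContDiff ℝ ∞ x)
    (hY : ContDiff ℝ ∞ Y) : ContDiff ℝ ∞ fun p => M.amatT (θ p) (x p) (Y p) := by
  have h1 : ∀ i, ContDiff ℝ ∞ fun p => pd i M.muC (x p) := fun i =>
    (contDiff_pd M.contDiff_muC i).comp hx
  have h2 : ∀ i, ContDiff ℝ ∞ fun p => pd i M.AC (x p) := fun i =>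
    (contDiff_pd M.contDiff_AC i).comp hx
  have h3 : ∀ i j, ContDiff ℝ ∞ fun p => pd j (pd i M.mC) (x p) := fun i j =>
    (contDiff_pd (contDiff_pd M.contDiff_mC i) j).comp hx
  have h4 : ContDiff ℝ ∞ fun p => M.muC (x p) := M.contDiff_muC.comp hx
  have h5 : ContDiff ℝ ∞ fun p => M.AC (x p) := M.contDiff_AC.comp hx
  have hθi : ∀ i, ContDiff ℝ ∞ fun p => θ p i := fun i => (contDiff_apply ℝ ℂ i).comp hθ
  have hW : ∀ i, ContDiff ℝ ∞ fun p => (Y p).1 i := fun i => (contDiff_apply ℝ ℂ i).comp hY.fst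
  have hP : ContDiff ℝ ∞ fun p => (Y p).2 := hY.snd
  have d1 : ContDiff ℝ ∞ fun p => Dth (θ p) M.muC (x p) :=
    ContDiff.sum fun i _ => (hθi i).smul (h1 i)
  have d2 : ContDiff ℝ ∞ fun p => Dth (θ p) M.AC (x p) :=
    ContDiff.sum fun i _ => (hθi i).smul (h2 i)
  have i1 : ContDiff ℝ ∞ fun p => (2 * M.muC (x p))⁻¹ :=
    (contDiff_const.mul h4).inv fun p => mul_ne_zero two_ne_zero (M.muC_ne _)
  have i2 : ContDiff ℝ ∞ fun p => (M.muC (x p))⁻¹ := h4.inv fun p => M.muC_ne _
  have i3 : ContDiff ℝ ∞ fun p => (M.AC (x p) + M.muC (x p))⁻¹ :=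
    (h5.add h4).inv fun p => M.AC_add_muC_ne _
  simp only [amatT, bdot, Fin.sum_univ_three, div_eq_mul_inv]
  refine ContDiff.prodMk (contDiff_pi.2 fun i => ?_) ?_
  · simp only [Pi.add_apply, Pi.sub_apply, Pi.smul_apply, smul_eq_mul, hessVec, hess, grad,
      Fin.sum_univ_three]
    fun_prop
  · fun_prop

/-- `amat` is linear in the direction. -/
theorem amat_dir (θ : C3) (x : Space) (Y : Amp) :
    M.amat θ x Y = ∑ k, θ k • M.amat (Pi.single k 1) x Y := by
  simp only [amat, Dth, hessVec, grad, bdot, Fin.sum_univ_three, Pi.single_apply]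
  refine Prod.ext (funext fun i => ?_) ?_
  · fin_cases i <;> simp [hess, grad, Fin.sum_univ_three] <;> ring
  · simp
    ring

theorem amatT_dir (θ : C3) (x : Space) (Y : Amp) :
    M.amatT θ x Y = ∑ k, θ k • M.amatT (Pi.single k 1) x Y := by
  simp only [amatT, Dth, hessVec, grad, bdot, Fin.sum_univ_three, Pi.single_apply]
  refine Prod.ext (funext fun i => ?_) ?_
  · fin_cases i <;> simp [Pi.single_apply, hessVec, hess, grad, Fin.sum_univ_three] <;> ring
  · simp
    ring

theorem amat_smul_dir (c : ℂ) (θ : C3) (x : Space) (Y : Amp) :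
    M.amat (c • θ) x Y = c • M.amat θ x Y := by
  rw [M.amat_dir, M.amat_dir θ, Finset.smul_sum]
  simp [smul_smul]

theorem amatT_smul_dir (c : ℂ) (θ : C3) (x : Space) (Y : Amp) :
    M.amatT (c • θ) x Y = c • M.amatT θ x Y := by
  rw [M.amatT_dir, M.amatT_dir θ, Finset.smul_sum]
  simp [smul_smul]

end Moduli

/-- Differentiating a first order equation in a holomorphic parameter. -/
theorem cr_eqn {θ : ℂ → C3} {z₀ : ℂ} (hθ : ∀ k, DifferentiableAt ℂ (fun z => θ z k) z₀)
    {L : C3 → Space → Amp → Amp} (hadd : ∀ θ x Y Y', L θ x (Y + Y') = L θ x Y + L θ x Y')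
    (hsmul : ∀ θ x (c : ℂ) Y, L θ x (c • Y) = c • L θ x Y)
    (hdir : ∀ θ x Y, L θ x Y = ∑ k, θ k • L (Pi.single k 1) x Y)
    {Y f : ℂ × Space → Amp} (hY : ContDiff ℝ ∞ Y) (_hf : ContDiff ℝ ∞ f) {x : Space}
    (heq : ∀ᶠ z in 𝓝 z₀, Dth (θ z) (sl Y z) x + L (θ z) x (Y (z, x)) = f (z, x)) :
    Dth (θ z₀) (sl (crP Y) z₀) x + L (θ z₀) x (crP Y (z₀, x)) = crP f (z₀, x) := by
  set T : Fin 3 → Amp →L[ℂ] Amp := fun k => LinearMap.toContinuousLinearMap
    { toFun := L (Pi.single k 1) x, map_add' := hadd _ x, map_smul' := hsmul _ x } with hT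
  have hT' : ∀ θ' v, L θ' x v = ∑ k, θ' k • T k v := fun θ' v => hdir θ' x v
  have hYz : DifferentiableAt ℝ (fun z => Y (z, x)) z₀ :=
    (contDiff_par hY x).differentiable (by simp) z₀
  have hg : ∀ k, DifferentiableAt ℝ (fun z => T k (Y (z, x))) z₀ := fun k =>
    ((T k).restrictScalars ℝ).differentiableAt.comp z₀ hYz
  have hp : ∀ k, DifferentiableAt ℝ (fun z => pd k (sl Y z) x) z₀ := fun k =>
    (contDiff_par (contDiff_pd_sl hY k) x).differentiable (by simp) z₀
  have hθr : ∀ k, DifferentiableAt ℝ (fun z => θ z k) z₀ := fun k => (hθ k).restrictScalars ℝ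
  have h := cr_congr heq
  simp only [hT', Dth] at h ⊢
  rw [cr_add (DifferentiableAt.fun_sum fun k _ => (hθr k).fun_smul (hp k))
      (DifferentiableAt.fun_sum fun k _ => (hθr k).fun_smul (hg k)),
    cr_sum_smul_holo Finset.univ (fun k _ => hθ k) (fun k _ => hp k),
    cr_sum_smul_holo Finset.univ (fun k _ => hθ k) (fun k _ => hg k)] at h
  simp only [cr_pd_sl hY, cr_clm (T _) hYz] at h
  exact h

/-! ### Charts -/

/-- A family of null vectors with a frame and coordinates of their orthogonal planes. -/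
structure Chart where
  /-- The null vectors. -/
  θ : ℂ → C3
  /-- The second vectors of the frames. -/
  e : ℂ → C3
  /-- The first coordinate. -/
  α : ℂ → C3 → ℂ
  /-- The second coordinate. -/
  β : ℂ → C3 → ℂ
  smθ : ContDiff ℝ ∞ θ
  sme : ContDiff ℝ ∞ e
  smα : ContDiff ℝ ∞ fun p : ℂ × C3 => α p.1 p.2
  smβ : ContDiff ℝ ∞ fun p : ℂ × C3 => β p.1 p.2
  linα : ∀ z (a b : ℂ) u v, α z (a • u + b • v) = a * α z u + b * α z v
  linβ : ∀ z (a b : ℂ) u v, β z (a • u + b • v) = a * β z u + b * β z v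
  null : ∀ z, IsNull (θ z)
  perp : ∀ z, bdot (θ z) (e z) = 0
  αθ : ∀ z, α z (θ z) = 1
  βθ : ∀ z, β z (θ z) = 0
  αe : ∀ z, α z (e z) = 0
  βe : ∀ z, β z (e z) = 1
  dec : ∀ z W, bdot (θ z) W = 0 → W = α z W • θ z + β z W • e z

/-- The involution of the second chart. -/
def flip3 (W : C3) : C3 := ![W 0, -W 1, -W 2]

theorem contDiff_flip3 : ContDiff ℝ ∞ flip3 :=
  contDiff_pi.2 fun i => by
    fin_cases i <;> simp only [flip3] <;> simp <;> fun_prop

theorem flip3_flip3 (W : C3) : flip3 (flip3 W) = W := by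
  funext i; fin_cases i <;> simp [flip3]

theorem bdot_flip3 (u v : C3) : bdot (flip3 u) v = bdot u (flip3 v) := by
  simp [bdot, Fin.sum_univ_three, flip3]

theorem flip3_lin (a b : ℂ) (u v : C3) : flip3 (a • u + b • v) = a • flip3 u + b • flip3 v := by
  funext i; fin_cases i <;> simp [flip3] <;> ring

theorem bdot_conic (z : ℂ) : bdot (conic z) (conic z) = 0 := by
  simp [bdot, Fin.sum_univ_three, conic]
  linear_combination (1 + z ^ 2) ^ 2 * Complex.I_sq

theorem isNull_conic (z : ℂ) : IsNull (conic z) := by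
  refine ⟨bdot_conic z, fun h => ?_⟩
  have h2 : z = 0 := by simpa [conic] using congrFun h 2
  have h0 := congrFun h 0
  simp [conic, h2] at h0

theorem bdot_conic_eps (a : Fin 2) (z : ℂ) : bdot (conic z) (eps a z) = 0 := by
  fin_cases a <;> simp [bdot, Fin.sum_univ_three, conic, eps]
  · linear_combination (1 + z ^ 2) * Complex.I_sq
  · linear_combination (-(z * (1 + z ^ 2))) * Complex.I_sq

theorem differentiable_conic (k : Fin 3) : Differentiable ℂ fun z => conic z k := by
  fin_cases k <;> simp [conic] <;> fun_prop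

theorem differentiable_eps (a : Fin 2) : Differentiable ℂ (eps a) :=
  differentiable_pi.2 fun k => by
    fin_cases a <;> fin_cases k <;> simp [eps] <;> fun_prop

/-- The chart of the null conic. -/
def conicChart : Chart where
  θ := conic
  e := eps 1
  α _ W := (W 0 - I * W 1) / 2
  β z W := z * (W 0 - I * W 1) - W 2
  smθ := contDiff_conic
  sme := contDiff_eps 1
  smα := by fun_prop
  smβ := by fun_prop
  linα _ a b u v := by simp; ring
  linβ _ a b u v := by simp; ring
  null := isNull_conic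
  perp := bdot_conic_eps 1
  αθ z := by simp [conic]; linear_combination (-(1 + z ^ 2) / 2) * Complex.I_sq
  βθ z := by simp [conic]; linear_combination (-(z * (1 + z ^ 2))) * Complex.I_sq
  αe z := by simp [eps]; linear_combination z * Complex.I_sq
  βe z := by simp [eps]; right; linear_combination z * Complex.I_sq
  dec z W h := by
    simp [bdot, Fin.sum_univ_three, conic] at h
    funext k
    fin_cases k <;> simp [conic, eps]
    · linear_combination (1 / 2 : ℂ) * h
    · linear_combination (-I / 2) * h + ((1 + z ^ 2) * W 1 / 2 + (1 + z ^ 2) * W 1 / 2 -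
        z ^ 2 * W 1) * Complex.I_sq
    · ring

/-- The chart near infinity. -/
def flipChart : Chart where
  θ w := flip3 (conic w)
  e w := flip3 (eps 1 w)
  α w W := conicChart.α w (flip3 W)
  β w W := conicChart.β w (flip3 W)
  smθ := contDiff_flip3.comp contDiff_conic
  sme := contDiff_flip3.comp (contDiff_eps 1)
  smα := conicChart.smα.comp (contDiff_fst.prodMk (contDiff_flip3.comp contDiff_snd))
  smβ := conicChart.smβ.comp (contDiff_fst.prodMk (contDiff_flip3.comp contDiff_snd))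
  linα w a b u v := by rw [flip3_lin, conicChart.linα]
  linβ w a b u v := by rw [flip3_lin, conicChart.linβ]
  null w := ⟨by rw [bdot_flip3, flip3_flip3]; exact bdot_conic w, fun h => (isNull_conic w).2 (by
    rw [← flip3_flip3 (conic w), h]; funext i; fin_cases i <;> simp [flip3])⟩
  perp w := by rw [bdot_flip3, flip3_flip3]; exact bdot_conic_eps 1 w
  αθ w := by rw [flip3_flip3]; exact conicChart.αθ w
  βθ w := by rw [flip3_flip3]; exact conicChart.βθ w
  αe w := by rw [flip3_flip3]; exact conicChart.αe w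
  βe w := by rw [flip3_flip3]; exact conicChart.βe w
  dec w W h := by
    rw [bdot_flip3] at h
    calc W = flip3 (flip3 W) := (flip3_flip3 W).symm
      _ = flip3 (conicChart.α w (flip3 W) • conicChart.θ w +
          conicChart.β w (flip3 W) • conicChart.e w) := by rw [← conicChart.dec w (flip3 W) h]
      _ = _ := flip3_lin _ _ _ _

theorem conic_inv {z : ℂ} (hz : z ≠ 0) : conic z = (-z ^ 2) • flip3 (conic z⁻¹) := by
  funext i
  fin_cases i <;> simp [conic, flip3] <;> field_simp <;> ring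

theorem eps_inv (a : Fin 2) {z : ℂ} (hz : z ≠ 0) :
    eps a z = z • flip3 (eps (1 - a) z⁻¹) := by
  funext i
  fin_cases a <;> fin_cases i <;> simp [eps, flip3] <;> field_simp

end

end Vale.Agent.P136.Full
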