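import Mathlib
import Vale.Agent.P136.Identity
import Vale.Agent.P136.Full.Gauge.Chart

/-!
# P136: the pairing of a field with the orthogonal amplitudes
-/

open MeasureTheory Filter Set Metric
open scoped ContDiff Topology

namespace Vale.Agent.P136.Full

noncomputable section

/-- The data of the gauge module. -/
structure Ctx (Ω : Set Space) (M₁ M₂ : Moduli) (R : ℝ) : Prop where
  open_Ω : IsOpen Ω
  inBall : closure Ω ⊆ ball (0 : Space) R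
  transport : TransportStmt
  orth : ∀ θ : C3, IsNull θ → ∀ Y, Realised M₂ θ R Y → OrthY Ω M₁ M₂ θ R Y

variable {Ω : Set Space} {M₁ M₂ : Moduli} {R : ℝ} {θ : C3}

/-- The pairing with a chosen adjoint field. -/
def Pz (Ω : Set Space) (M₁ M₂ : Moduli) (θ : C3) (η ξ Y : Space → Amp) : ℂ :=
  ∫ x in Ω, (dot4 (ξ x) (Y x) + dot4 (η x) (M₂.amat θ x (Y x) - M₁.amat θ x (Y x)))

/-- An adjoint field with a given source. -/
def IsAdj (M₁ : Moduli) (R : ℝ) (θ : C3) (ξ η : Space → Amp) : Prop :=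
  ContDiff ℝ ∞ η ∧ ∀ x ∈ ball (0 : Space) R, Dth θ η x + M₁.amatT θ x (η x) = ξ x

open Classical in
/-- A choice of adjoint field. -/
def adj (M₁ : Moduli) (R : ℝ) (θ : C3) (ξ : Space → Amp) : Space → Amp :=
  Classical.epsilon (IsAdj M₁ R θ ξ)

/-- The pairing. -/
def P0 (Ω : Set Space) (M₁ M₂ : Moduli) (R : ℝ) (θ : C3) (ξ Y : Space → Amp) : ℂ :=
  Pz Ω M₁ M₂ θ (adj M₁ R θ ξ) ξ Y

/-- Amplitude fields solving the second system in the ball. -/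
structure Sol (M₂ : Moduli) (R : ℝ) (θ : C3) (Y : Space → Amp) : Prop where
  smooth : ContDiff ℝ ∞ Y
  perp : ∀ x ∈ ball (0 : Space) R, bdot θ (Y x).1 = 0
  eqn : ∀ x ∈ ball (0 : Space) R, Dth θ Y x = M₂.amat θ x (Y x)

theorem Ctx.bounded (H : Ctx Ω M₁ M₂ R) : Bornology.IsBounded Ω :=
  Metric.isBounded_ball.subset (subset_closure.trans H.inBall)

theorem Ctx.mem_ball (H : Ctx Ω M₁ M₂ R) {x : Space} (hx : x ∈ Ω) : x ∈ ball (0 : Space) R :=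
  H.inBall (subset_closure hx)

theorem Ctx.int (H : Ctx Ω M₁ M₂ R) {f : Space → ℂ} (hf : Continuous f) : IntegrableOn f Ω :=
  Vale.Agent.P136.integrableOn_of_continuous H.bounded hf

theorem contDiff_amat_sl (M : Moduli) (θ : C3) {Y : Space → Amp} (hY : ContDiff ℝ ∞ Y) :
    ContDiff ℝ ∞ fun x => M.amat θ x (Y x) :=
  M.contDiff_amat contDiff_const contDiff_id hY

theorem contDiff_amatT_sl (M : Moduli) (θ : C3) {Y : Space → Amp} (hY : ContDiff ℝ ∞ Y) :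
    ContDiff ℝ ∞ fun x => M.amatT θ x (Y x) :=
  M.contDiff_amatT contDiff_const contDiff_id hY

theorem differentiableAt_amp {Y : Space → Amp} (hY : ContDiff ℝ ∞ Y) (x : Space) :
    DifferentiableAt ℝ Y x := hY.differentiable (by simp) x

theorem continuous_pzInt (θ : C3) {η ξ Y : Space → Amp} (hη : ContDiff ℝ ∞ η)
    (hξ : ContDiff ℝ ∞ ξ) (hY : ContDiff ℝ ∞ Y) :
    Continuous fun x => dot4 (ξ x) (Y x) +
      dot4 (η x) (M₂.amat θ x (Y x) - M₁.amat θ x (Y x)) :=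
  ((contDiff_dot4 hξ hY).add
    (contDiff_dot4 hη ((contDiff_amat_sl M₂ θ hY).sub (contDiff_amat_sl M₁ θ hY)))).continuous

/-- Adjoint fields exist. -/
theorem Ctx.exists_adj (H : Ctx Ω M₁ M₂ R) (hθ : IsNull θ) {ξ : Space → Amp}
    (hξ : ContDiff ℝ ∞ ξ) : ∃ η, IsAdj M₁ R θ ξ η := by
  obtain ⟨⟨ρ, hρ, Y, hY, hYe⟩, -⟩ := H.transport (fun _ => θ) contDiff_const (fun _ => hθ)
    (fun p => -M₁.amatTL θ p.2) (fun p => ξ p.2)
    (M₁.contDiff_amatTL (θ := fun _ => θ) (g := Prod.snd) contDiff_const contDiff_snd).neg (hξ.comp contDiff_snd) 0 R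
  refine ⟨sl Y 0, contDiff_sl hY 0, fun x hx => ?_⟩
  have h := hYe 0 (mem_ball_self hρ) x hx
  simp only [neg_apply, Moduli.amatTL_apply] at h
  show Dth θ (fun y => Y (0, y)) x + M₁.amatT θ x (Y (0, x)) = ξ x
  rw [h]; abel

theorem Ctx.adj_spec (H : Ctx Ω M₁ M₂ R) (hθ : IsNull θ) {ξ : Space → Amp}
    (hξ : ContDiff ℝ ∞ ξ) : IsAdj M₁ R θ ξ (adj M₁ R θ ξ) :=
  Classical.epsilon_spec (H.exists_adj hθ hξ)

theorem IsAdj.add {ξ ξ' η η' : Space → Amp} (h : IsAdj M₁ R θ ξ η) (h' : IsAdj M₁ R θ ξ' η') :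
    IsAdj M₁ R θ (ξ + ξ') (η + η') := by
  refine ⟨h.1.add h'.1, fun x hx => ?_⟩
  show Dth θ (fun y => η y + η' y) x + _ = _
  rw [Dth_add θ (differentiableAt_amp h.1 x) (differentiableAt_amp h'.1 x), Pi.add_apply,
    Pi.add_apply, M₁.amatT_add, ← h.2 x hx, ← h'.2 x hx]
  abel

theorem IsAdj.smul_fun {ξ η : Space → Amp} (h : IsAdj M₁ R θ ξ η) {f : Space → ℂ}
    (hf : ContDiff ℝ ∞ f) (hfc : ∀ x ∈ ball (0 : Space) R, Dth θ f x = 0) :
    IsAdj M₁ R θ (fun x => f x • ξ x) fun x => f x • η x := by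
  refine ⟨hf.smul h.1, fun x hx => ?_⟩
  rw [Dth_smul θ (hf.differentiable (by simp) x) (differentiableAt_amp h.1 x), hfc x hx, zero_smul,
    zero_add, M₁.amatT_smul, ← smul_add, h.2 x hx]

/-- The pairing does not depend on the adjoint field. -/
theorem Ctx.P0_eq (H : Ctx Ω M₁ M₂ R) (hθ : IsNull θ) {ξ η Y : Space → Amp}
    (hξ : ContDiff ℝ ∞ ξ) (hY : OrthY Ω M₁ M₂ θ R Y) (hη : IsAdj M₁ R θ ξ η) :
    P0 Ω M₁ M₂ R θ ξ Y = Pz Ω M₁ M₂ θ η ξ Y := by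
  have ha := H.adj_spec hθ hξ
  have hd : ∀ x ∈ ball (0 : Space) R,
      Dth θ (fun y => adj M₁ R θ ξ y - η y) x + M₁.amatT θ x (adj M₁ R θ ξ x - η x) = 0 := by
    intro x hx
    rw [Dth_sub θ (differentiableAt_amp ha.1 x) (differentiableAt_amp hη.1 x),
      ← M₁.amatTL_apply, map_sub, M₁.amatTL_apply, M₁.amatTL_apply]
    rw [← sub_eq_zero.2 ((ha.2 x hx).trans (hη.2 x hx).symm)]
    abel
  have h := hY.orth _ (ha.1.sub hη.1) hd
  rw [P0, Pz, Pz, ← sub_eq_zero, ← integral_sub (H.int (continuous_pzInt θ ha.1 hξ hY.smooth))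
    (H.int (continuous_pzInt θ hη.1 hξ hY.smooth))]
  refine Eq.trans (setIntegral_congr_fun H.open_Ω.measurableSet fun x _ => ?_) h
  simp only [dot4, bdot, Fin.sum_univ_three, Prod.fst_sub, Prod.snd_sub, Pi.sub_apply]
  ring

theorem Ctx.P0_congr_left (H : Ctx Ω M₁ M₂ R) (hθ : IsNull θ) {ξ ξ' Y : Space → Amp}
    (hξ : ContDiff ℝ ∞ ξ) (hξ' : ContDiff ℝ ∞ ξ') (hY : OrthY Ω M₁ M₂ θ R Y)
    (h : ∀ x ∈ ball (0 : Space) R, ξ x = ξ' x) :
    P0 Ω M₁ M₂ R θ ξ Y = P0 Ω M₁ M₂ R θ ξ' Y := by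
  obtain ⟨η, hη⟩ := H.exists_adj hθ hξ
  rw [H.P0_eq hθ hξ hY hη,
    H.P0_eq hθ hξ' hY ⟨hη.1, fun x hx => (hη.2 x hx).trans (h x hx)⟩, Pz, Pz]
  exact setIntegral_congr_fun H.open_Ω.measurableSet fun x hx => by rw [h x (H.mem_ball hx)]

theorem Ctx.P0_add_left (H : Ctx Ω M₁ M₂ R) (hθ : IsNull θ) {ξ ξ' Y : Space → Amp}
    (hξ : ContDiff ℝ ∞ ξ) (hξ' : ContDiff ℝ ∞ ξ') (hY : OrthY Ω M₁ M₂ θ R Y) :
    P0 Ω M₁ M₂ R θ (ξ + ξ') Y = P0 Ω M₁ M₂ R θ ξ Y + P0 Ω M₁ M₂ R θ ξ' Y := by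
  obtain ⟨η, hη⟩ := H.exists_adj hθ hξ
  obtain ⟨η', hη'⟩ := H.exists_adj hθ hξ'
  rw [H.P0_eq (ξ := ξ + ξ') hθ (hξ.add hξ') hY (hη.add hη'), H.P0_eq hθ hξ hY hη, H.P0_eq hθ hξ' hY hη', Pz, Pz,
    Pz, ← integral_add (H.int (continuous_pzInt θ hη.1 hξ hY.smooth))
      (H.int (continuous_pzInt θ hη'.1 hξ' hY.smooth))]
  refine setIntegral_congr_fun H.open_Ω.measurableSet fun x _ => ?_
  simp only [Pi.add_apply, dot4_add_left]
  ring

theorem Ctx.P0_smul_left (H : Ctx Ω M₁ M₂ R) (hθ : IsNull θ) {ξ Y : Space → Amp} (a : ℂ)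
    (hξ : ContDiff ℝ ∞ ξ) (hY : OrthY Ω M₁ M₂ θ R Y) :
    P0 Ω M₁ M₂ R θ (fun x => a • ξ x) Y = a * P0 Ω M₁ M₂ R θ ξ Y := by
  obtain ⟨η, hη⟩ := H.exists_adj hθ hξ
  have ha := hη.smul_fun (f := fun _ => a) contDiff_const
    fun x _ => by simp [Dth, pd_const]
  rw [H.P0_eq hθ (hξ.const_smul a) hY ha, H.P0_eq hθ hξ hY hη, Pz, Pz, ← integral_const_mul]
  refine setIntegral_congr_fun H.open_Ω.measurableSet fun x _ => ?_
  simp only [dot4_smul_left]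
  ring

theorem Ctx.P0_zero_left (H : Ctx Ω M₁ M₂ R) (hθ : IsNull θ) {ξ Y : Space → Amp}
    (hξ : ContDiff ℝ ∞ ξ) (hY : OrthY Ω M₁ M₂ θ R Y) (h : ∀ x ∈ ball (0 : Space) R, ξ x = 0) :
    P0 Ω M₁ M₂ R θ ξ Y = 0 := by
  have h0 := H.P0_congr_left (ξ' := fun x => (0 : ℂ) • ξ x) hθ hξ (hξ.const_smul (0 : ℂ)) hY
    fun x hx => by simp [h x hx]
  rw [h0, H.P0_smul_left hθ 0 hξ hY, zero_mul]

theorem Ctx.P0_sum_left (H : Ctx Ω M₁ M₂ R) (hθ : IsNull θ) {ι : Type*} (s : Finset ι)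
    {ξ : ι → Space → Amp} {Y : Space → Amp} (hξ : ∀ k, ContDiff ℝ ∞ (ξ k))
    (hY : OrthY Ω M₁ M₂ θ R Y) :
    P0 Ω M₁ M₂ R θ (fun x => ∑ k ∈ s, ξ k x) Y = ∑ k ∈ s, P0 Ω M₁ M₂ R θ (ξ k) Y := by
  classical
  induction s using Finset.induction_on with
  | empty =>
    simp only [Finset.sum_empty]
    exact H.P0_zero_left hθ contDiff_const hY fun x _ => rfl
  | insert k s hk ih =>
    simp only [Finset.sum_insert hk]
    rw [← ih]
    exact H.P0_add_left hθ (hξ k) (ContDiff.sum fun j _ => hξ j) hY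

theorem OrthY.sol {Y : Space → Amp} (h : OrthY Ω M₁ M₂ θ R Y) : Sol M₂ R θ Y :=
  ⟨h.smooth, h.perp, h.eqn⟩

theorem Sol.add {Y Y' : Space → Amp} (h : Sol M₂ R θ Y) (h' : Sol M₂ R θ Y') :
    Sol M₂ R θ fun x => Y x + Y' x where
  smooth := h.smooth.add h'.smooth
  perp x hx := by simp [bdot_add_right, h.perp x hx, h'.perp x hx]
  eqn x hx := by
    rw [Dth_add θ (differentiableAt_amp h.smooth x) (differentiableAt_amp h'.smooth x),
      h.eqn x hx, h'.eqn x hx, M₂.amat_add]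

theorem Sol.smul_fun {Y : Space → Amp} (h : Sol M₂ R θ Y) {f : Space → ℂ}
    (hf : ContDiff ℝ ∞ f) (hfc : ∀ x ∈ ball (0 : Space) R, Dth θ f x = 0) :
    Sol M₂ R θ fun x => f x • Y x where
  smooth := hf.smul h.smooth
  perp x hx := by simp [bdot_smul_right, h.perp x hx]
  eqn x hx := by
    rw [Dth_smul θ (hf.differentiable (by simp) x) (differentiableAt_amp h.smooth x), hfc x hx,
      zero_smul, zero_add, h.eqn x hx, M₂.amat_smul]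

theorem Ctx.orth_smul_fun (H : Ctx Ω M₁ M₂ R) {Y : Space → Amp}
    (h : OrthY Ω M₁ M₂ θ R Y) {f : Space → ℂ} (hf : ContDiff ℝ ∞ f)
    (hfc : ∀ x ∈ ball (0 : Space) R, Dth θ f x = 0) : OrthY Ω M₁ M₂ θ R fun x => f x • Y x := by
  have hs := h.sol.smul_fun hf hfc
  refine ⟨hs.smooth, hs.perp, hs.eqn, fun η hη hη0 => ?_⟩
  have ha := IsAdj.smul_fun (ξ := fun _ => 0) (M₁ := M₁) ⟨hη, hη0⟩ hf hfc
  have := h.orth (fun x => f x • η x) ha.1 fun x hx => by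
    have := ha.2 x hx
    simpa using this
  refine Eq.trans (setIntegral_congr_fun H.open_Ω.measurableSet fun x _ => ?_) this
  simp only [M₂.amat_smul, M₁.amat_smul, ← smul_sub, dot4_smul_left, dot4_smul_right]

/-- Closed multipliers move across the pairing. -/
theorem Ctx.P0_move (H : Ctx Ω M₁ M₂ R) (hθ : IsNull θ) {ξ Y : Space → Amp} {f : Space → ℂ}
    (hf : ContDiff ℝ ∞ f) (hfc : ∀ x ∈ ball (0 : Space) R, Dth θ f x = 0)
    (hξ : ContDiff ℝ ∞ ξ) (hY : OrthY Ω M₁ M₂ θ R Y) :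
    P0 Ω M₁ M₂ R θ (fun x => f x • ξ x) Y = P0 Ω M₁ M₂ R θ ξ fun x => f x • Y x := by
  obtain ⟨η, hη⟩ := H.exists_adj hθ hξ
  rw [H.P0_eq (ξ := fun x => f x • ξ x) hθ (hf.smul hξ) hY (hη.smul_fun hf hfc),
    H.P0_eq hθ hξ (H.orth_smul_fun hY hf hfc) hη, Pz, Pz]
  refine setIntegral_congr_fun H.open_Ω.measurableSet fun x _ => ?_
  simp only [M₂.amat_smul, M₁.amat_smul, ← smul_sub, dot4_smul_left, dot4_smul_right]

theorem Ctx.P0_sum_right (H : Ctx Ω M₁ M₂ R) (hθ : IsNull θ) {ι : Type*} (s : Finset ι)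
    {Y : ι → Space → Amp} {Z ξ : Space → Amp} (hξ : ContDiff ℝ ∞ ξ)
    (hY : ∀ k, ContDiff ℝ ∞ (Y k)) (hsum : ∀ x ∈ Ω, ∑ k ∈ s, Y k x = Z x) :
    ∑ k ∈ s, P0 Ω M₁ M₂ R θ ξ (Y k) = P0 Ω M₁ M₂ R θ ξ Z := by
  have ha := H.adj_spec hθ hξ
  simp only [P0, Pz]
  rw [← integral_finsetSum _ fun k _ => H.int (continuous_pzInt θ ha.1 hξ (hY k))]
  refine setIntegral_congr_fun H.open_Ω.measurableSet fun x hx => ?_
  have h1 : ∀ (a : Amp) (T : Amp →L[ℂ] Amp), ∑ k ∈ s, dot4 a (T (Y k x)) = dot4 a (T (Z x)) := by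
    intro a T
    rw [← hsum x hx, map_sum]
    simp only [dot4, bdot, Prod.fst_sum, Prod.snd_sum, Finset.sum_apply, Finset.mul_sum]
    rw [Finset.sum_add_distrib, Finset.sum_comm]
  have h2 := h1 (ξ x) (ContinuousLinearMap.id ℂ Amp)
  have h3 := h1 (adj M₁ R θ ξ x) (M₂.amatL θ x - M₁.amatL θ x)
  simp only [ContinuousLinearMap.id_apply, sub_apply, Moduli.amatL_apply] at h2 h3
  rw [Finset.sum_add_distrib, h2, h3]

theorem OrthY.scale {Y : Space → Amp} {c : ℂ} (hc : c ≠ 0) (h : OrthY Ω M₁ M₂ θ R Y) :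
    OrthY Ω M₁ M₂ (c • θ) R Y where
  smooth := h.smooth
  perp x hx := by rw [bdot_smul_left, h.perp x hx, mul_zero]
  eqn x hx := by rw [Dth_smul_vec, h.eqn x hx, M₂.amat_smul_dir]
  orth η hη hη0 := by
    have h1 : ∀ x ∈ ball (0 : Space) R, Dth θ η x + M₁.amatT θ x (η x) = 0 := fun x hx => by
      have := hη0 x hx
      rw [Dth_smul_vec, M₁.amatT_smul_dir, ← smul_add] at this
      exact (smul_eq_zero.1 this).resolve_left hc
    simp only [M₂.amat_smul_dir, M₁.amat_smul_dir, ← smul_sub, dot4_smul_right]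
    rw [integral_const_mul, h.orth η hη h1, mul_zero]

theorem Ctx.P0_scale (H : Ctx Ω M₁ M₂ R) (hθ : IsNull θ) {c : ℂ} (hc : c ≠ 0)
    {ξ Y : Space → Amp} (hξ : ContDiff ℝ ∞ ξ) (hY : OrthY Ω M₁ M₂ θ R Y) :
    P0 Ω M₁ M₂ R (c • θ) ξ Y = P0 Ω M₁ M₂ R θ ξ Y := by
  obtain ⟨η, hη⟩ := H.exists_adj hθ hξ
  have hn : IsNull (c • θ) := ⟨by rw [bdot_smul_left, bdot_smul_right, hθ.1, mul_zero, mul_zero],
    smul_ne_zero hc hθ.2⟩
  have ha : IsAdj M₁ R (c • θ) ξ fun x => c⁻¹ • η x := by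
    refine ⟨hη.1.const_smul c⁻¹, fun x hx => ?_⟩
    rw [Dth_smul_vec, Dth_const_smul θ c⁻¹ (differentiableAt_amp hη.1 x), M₁.amatT_smul_dir,
      M₁.amatT_smul, ← smul_add, ← smul_add, hη.2 x hx, smul_inv_smul₀ hc]
  rw [H.P0_eq hn hξ (hY.scale hc) ha, H.P0_eq hθ hξ hY hη, Pz, Pz]
  refine setIntegral_congr_fun H.open_Ω.measurableSet fun x _ => ?_
  simp only [M₂.amat_smul_dir, M₁.amat_smul_dir, ← smul_sub, dot4_smul_left, dot4_smul_right]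
  field_simp

end

end Vale.Agent.P136.Full
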