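import Mathlib
import Vale.Agent.P136.Full.Gauge.Cls

/-!
# P136: three independent families of leading amplitudes near a point
-/

open MeasureTheory Filter Set Metric
open scoped ContDiff Topology

namespace Vale.Agent.P136.Full

noncomputable section

theorem pd_const_fun {E : Type*} [NormedAddCommGroup E] [NormedSpace ℂ E] (i : Fin 3) (c : E) :
    pd i (fun _ : Space => c) = fun _ => 0 := funext fun x => pd_const i c x

namespace Moduli

variable (M : Moduli)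

/-- The transport system of the amplitudes, solved for the derivative. -/
def tmat (θ : C3) (x : Space) (v : Amp) : Amp :=
  ((M.sqC x * v.2) • hessVec M.mC x θ + (bdot θ v.1 * M.mC x / 2) • grad M.muC x,
    -(M.cC x * bdot θ v.1 / 2))

theorem tmat_add (θ : C3) (x : Space) (v w : Amp) :
    M.tmat θ x (v + w) = M.tmat θ x v + M.tmat θ x w := by
  simp only [tmat, Prod.mk_add_mk, Prod.fst_add, Prod.snd_add, bdot_add_right, Prod.mk.injEq]
  refine ⟨?_, by ring⟩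
  ext i
  simp only [Pi.add_apply, Pi.smul_apply, smul_eq_mul]
  ring

theorem tmat_smul (θ : C3) (x : Space) (c : ℂ) (v : Amp) :
    M.tmat θ x (c • v) = c • M.tmat θ x v := by
  simp only [tmat, Prod.smul_mk, Prod.smul_fst, Prod.smul_snd, bdot_smul_right, smul_eq_mul,
    Prod.mk.injEq]
  refine ⟨?_, by ring⟩
  ext i
  simp only [Pi.add_apply, Pi.smul_apply, smul_eq_mul]
  ring

/-- `tmat` as a continuous linear map. -/
def tmatL (θ : C3) (x : Space) : Amp →L[ℂ] Amp :=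
  LinearMap.toContinuousLinearMap
    { toFun := M.tmat θ x, map_add' := M.tmat_add θ x, map_smul' := M.tmat_smul θ x }

@[simp] theorem tmatL_apply (θ : C3) (x : Space) (v : Amp) : M.tmatL θ x v = M.tmat θ x v := rfl

theorem contDiff_tmatL {θ : ℂ → C3} (hθ : ContDiff ℝ ∞ θ) :
    ContDiff ℝ ∞ fun p : ℂ × Space => M.tmatL (θ p.1) p.2 := by
  refine contDiff_clm_complex fun v => ?_
  have hθi : ∀ i, ContDiff ℝ ∞ fun p : ℂ × Space => θ p.1 i := fun i =>
    ((contDiff_apply ℝ ℂ i).comp hθ).comp contDiff_fst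
  have h1 : ∀ i, ContDiff ℝ ∞ fun p : ℂ × Space => pd i M.muC p.2 := fun i =>
    (contDiff_pd M.contDiff_muC i).comp contDiff_snd
  have h3 : ∀ i j, ContDiff ℝ ∞ fun p : ℂ × Space => pd j (pd i M.mC) p.2 := fun i j =>
    (contDiff_pd (contDiff_pd M.contDiff_mC i) j).comp contDiff_snd
  have h4 : ContDiff ℝ ∞ fun p : ℂ × Space => M.sqC p.2 := M.contDiff_sqC.comp contDiff_snd
  have h5 : ContDiff ℝ ∞ fun p : ℂ × Space => M.mC p.2 := M.contDiff_mC.comp contDiff_snd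
  have h6 : ContDiff ℝ ∞ fun p : ℂ × Space => M.cC p.2 := M.contDiff_cC.comp contDiff_snd
  simp only [tmatL_apply, tmat, bdot, Fin.sum_univ_three, div_eq_mul_inv]
  refine ContDiff.prodMk (contDiff_pi.2 fun i => ?_) ?_
  · simp only [Pi.add_apply, Pi.smul_apply, smul_eq_mul, hessVec, hess, grad, Fin.sum_univ_three]
    fun_prop
  · fun_prop

theorem transport_of_eqn {θ : C3} {Y : Space → Amp} {x : Space} {F : Amp}
    (hY : ContDiff ℝ ∞ Y) (h : Dth θ Y x = M.tmat θ x (Y x) + (-2⁻¹ : ℂ) • F) :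
    M.transport θ Y x = -F := by
  have hd := differentiableAt_amp hY x
  rw [transport, Dth_fst θ hd, Dth_snd θ hd, h]
  refine Prod.ext (funext fun i => ?_) ?_ <;>
    simp [tmat] <;> ring

/-- The reduced system on constant fields with vanishing scalar part. -/
theorem contDiff_reduced_const {e : ℂ → C3} (he : ContDiff ℝ ∞ e) :
    ContDiff ℝ ∞ fun p : ℂ × Space => M.reduced (fun _ => (e p.1, 0)) p.2 := by
  have hei : ∀ i, ContDiff ℝ ∞ fun p : ℂ × Space => e p.1 i := fun i =>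
    ((contDiff_apply ℝ ℂ i).comp he).comp contDiff_fst
  have h1 : ∀ i, ContDiff ℝ ∞ fun p : ℂ × Space => pd i M.muC p.2 := fun i =>
    (contDiff_pd M.contDiff_muC i).comp contDiff_snd
  have h2 : ∀ i, ContDiff ℝ ∞ fun p : ℂ × Space => pd i M.nC p.2 := fun i =>
    (contDiff_pd M.contDiff_nC i).comp contDiff_snd
  have h3 : ∀ i j, ContDiff ℝ ∞ fun p : ℂ × Space => pd j (pd i M.nC) p.2 := fun i j =>
    (contDiff_pd (contDiff_pd M.contDiff_nC i) j).comp contDiff_snd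
  have h4 : ContDiff ℝ ∞ fun p : ℂ × Space => M.muC p.2 := M.contDiff_muC.comp contDiff_snd
  have h5 : ContDiff ℝ ∞ fun p : ℂ × Space => M.AC p.2 := M.contDiff_AC.comp contDiff_snd
  have i1 : ContDiff ℝ ∞ fun p : ℂ × Space => (M.sqC p.2)⁻¹ :=
    (M.contDiff_sqC.comp contDiff_snd).inv fun p => M.sqC_ne _
  have i3 : ContDiff ℝ ∞ fun p : ℂ × Space => (M.AC p.2 + M.muC p.2)⁻¹ :=
    (h5.add h4).inv fun p => M.AC_add_muC_ne _
  simp only [reduced, lap, divv, grad, bdot, pd_const_fun, Fin.sum_univ_three, div_eq_mul_inv,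
    mul_zero, zero_mul, add_zero]
  refine ContDiff.prodMk (contDiff_pi.2 fun i => ?_) ?_
  · simp [hessVec, hess, grad, pd_const, Fin.sum_univ_three]
    fun_prop
  · fun_prop

theorem reduced_zero (x : Space) : M.reduced (fun _ => 0) x = 0 := by
  simp only [reduced, lap, divv, grad, bdot, pd_const_fun, Prod.fst_zero,
    Prod.snd_zero, Pi.zero_apply, mul_zero, zero_mul, Finset.sum_const_zero, zero_smul, smul_zero]
  refine Prod.ext (funext fun i => ?_) ?_ <;> simp [hessVec, hess, grad, pd_const_fun]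

/-- The leading amplitude of a constant field and a first corrector. -/
def leadC (θ e : C3) (Y : Space → Amp) (x : Space) : Amp :=
  (M.nC x • e + (M.mC x * (Y x).2) • θ,
    M.nC x * bdot θ (Y x).1 + 2 * M.mC x * (Dth θ Y x).2 + bdot (grad M.nC x) e)

theorem lead_const (θ e : C3) {Y : Space → Amp} (hY : ContDiff ℝ ∞ Y) :
    M.lead θ (fun _ => (e, 0)) Y = M.leadC θ e Y := by
  funext x
  have hd := differentiableAt_amp hY x
  have hm := differentiableAt_of M.contDiff_mC x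
  have hn := differentiableAt_of M.contDiff_nC x
  have hk : ∀ i : Fin 3, pd i (fun y => (M.nC y • e + (M.mC y * (Y y).2) • θ) i) x =
      pd i M.nC x * e i + (pd i M.mC x * (Y x).2 + M.mC x * (pd i Y x).2) * θ i := fun i => by
    simp only [Pi.add_apply, Pi.smul_apply, smul_eq_mul]
    rw [pd_add i (hn.fun_mul (differentiableAt_const _))
        ((hm.fun_mul hd.snd).fun_mul (differentiableAt_const _)),
      pd_mul i hn (differentiableAt_const _), pd_mul i (hm.fun_mul hd.snd) (differentiableAt_const _),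
      pd_mul i hm hd.snd, pd_snd i hd]
    simp [pd_const]
  simp only [lead, leadC, Prod.mk.injEq, true_and, disp, divv, hk]
  simp only [bdot_three, Fin.sum_univ_three, Dth, Pi.add_apply, Pi.sub_apply, Pi.smul_apply,
    smul_eq_mul, Prod.snd_add, Prod.smul_snd, grad, pd_snd _ hd]
  ring

theorem contDiff_leadC {θ e : ℂ → C3} (hθ : ContDiff ℝ ∞ θ) (he : ContDiff ℝ ∞ e)
    {Y : ℂ × Space → Amp} (hY : ContDiff ℝ ∞ Y) :
    ContDiff ℝ ∞ fun p : ℂ × Space => M.leadC (θ p.1) (e p.1) (sl Y p.1) p.2 := by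
  have hθi : ∀ i, ContDiff ℝ ∞ fun p : ℂ × Space => θ p.1 i := fun i =>
    ((contDiff_apply ℝ ℂ i).comp hθ).comp contDiff_fst
  have hei : ∀ i, ContDiff ℝ ∞ fun p : ℂ × Space => e p.1 i := fun i =>
    ((contDiff_apply ℝ ℂ i).comp he).comp contDiff_fst
  have hW : ∀ i, ContDiff ℝ ∞ fun p : ℂ × Space => (Y p).1 i := fun i =>
    (contDiff_apply ℝ ℂ i).comp hY.fst
  have hP : ContDiff ℝ ∞ fun p : ℂ × Space => (Y p).2 := hY.snd
  have hD : ContDiff ℝ ∞ fun p : ℂ × Space => (Dth (θ p.1) (sl Y p.1) p.2).2 :=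
    (contDiff_Dth_sl hθ hY).snd
  have h1 : ∀ i, ContDiff ℝ ∞ fun p : ℂ × Space => pd i M.nC p.2 := fun i =>
    (contDiff_pd M.contDiff_nC i).comp contDiff_snd
  have h2 : ContDiff ℝ ∞ fun p : ℂ × Space => M.nC p.2 := M.contDiff_nC.comp contDiff_snd
  have h3 : ContDiff ℝ ∞ fun p : ℂ × Space => M.mC p.2 := M.contDiff_mC.comp contDiff_snd
  simp only [leadC, sl, bdot, grad, Fin.sum_univ_three] at hD ⊢
  refine ContDiff.prodMk (contDiff_pi.2 fun i => ?_) ?_
  · simp only [Pi.add_apply, Pi.smul_apply, smul_eq_mul]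
    fun_prop
  · fun_prop

theorem lead_scalar_ne (x : Space) : M.nC x - M.mC x * M.cC x ≠ 0 := by
  have h1 := M.sqC_ne x
  have h2 := M.muC_ne x
  have h3 := M.AC_add_muC_ne x
  have : M.nC x - M.mC x * M.cC x = M.muC x / (M.sqC x * (M.AC x + M.muC x)) := by
    rw [M.nC_eq, M.mC_eq, M.cC_eq, ← M.sqC_mul_sqC x]
    rw [← M.sqC_mul_sqC x] at h3
    generalize M.sqC x = s at h1 h3 ⊢
    generalize M.AC x = a at h3 ⊢
    have h4 : a + s ^ 2 ≠ 0 := by rwa [pow_two]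
    field_simp
    ring
  rw [this]
  exact div_ne_zero h2 (mul_ne_zero h1 h3)

end Moduli

variable {Ω : Set Space} {M₁ M₂ : Moduli} {R : ℝ}

/-- A family of realised amplitudes from a constant field and a first corrector. -/
theorem Ctx.orth_leadC (H : Ctx Ω M₁ M₂ R) {θ e : C3} (hθ : IsNull θ) (he : bdot θ e = 0)
    {Y : Space → Amp} (hY : ContDiff ℝ ∞ Y)
    (heq : ∀ x ∈ ball (0 : Space) R,
      Dth θ Y x = M₂.tmat θ x (Y x) + (-2⁻¹ : ℂ) • M₂.reduced (fun _ => (e, 0)) x) :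
    OrthY Ω M₁ M₂ θ R (M₂.leadC θ e Y) := by
  refine H.orth θ hθ _ ⟨fun _ => (e, 0), Y, contDiff_const, hY, fun x hx => ⟨he, rfl, ?_, ?_⟩,
    (M₂.lead_const θ e hY).symm⟩
  · simp [Moduli.transport, Dth, pd_const, he]
  · rw [M₂.transport_of_eqn hY (heq x hx)]
    exact add_neg_cancel _

/-- The coordinates of an amplitude in a chart. -/
def crd (C : Chart) (z : ℂ) (v : Amp) : C3 := ![C.α z v.1, C.β z v.1, v.2]

/-- The determinant of three columns. -/
def det3 (u v w : C3) : ℂ :=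
  u 0 * (v 1 * w 2 - v 2 * w 1) - v 0 * (u 1 * w 2 - u 2 * w 1) + w 0 * (u 1 * v 2 - u 2 * v 1)

/-- Near a point there are three families of orthogonal amplitudes, independent at the point. -/
theorem Ctx.exists_triple (H : Ctx Ω M₁ M₂ R) (C : Chart) (z₀ : ℂ) {x₀ : Space}
    (hx₀ : x₀ ∈ closedBall (0 : Space) R) :
    ∃ ρ > 0, ∃ Y : Fin 3 → ℂ × Space → Amp, (∀ i, ContDiff ℝ ∞ (Y i)) ∧
      (∀ z ∈ ball z₀ ρ, ∀ i, OrthY Ω M₁ M₂ (C.θ z) R (sl (Y i) z)) ∧
      det3 (crd C z₀ (Y 0 (z₀, x₀))) (crd C z₀ (Y 1 (z₀, x₀))) (crd C z₀ (Y 2 (z₀, x₀))) ≠ 0 := by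
  have hx : x₀ ∈ ball (0 : Space) (R + 1) := closedBall_subset_ball (by linarith) hx₀
  have hsub : ball (0 : Space) R ⊆ ball (0 : Space) (R + 1) := ball_subset_ball (by linarith)
  obtain ⟨k, hk⟩ : ∃ k, C.θ z₀ k ≠ 0 := by
    by_contra h
    push Not at h
    exact (C.null z₀).2 (funext h)
  set r : C3 := Pi.single k (C.θ z₀ k)⁻¹ with hr
  have hθr : bdot (C.θ z₀) r = 1 := by simp [bdot, hr, Pi.single_apply, hk]
  have hN := M₂.contDiff_tmatL C.smθ
  obtain ⟨⟨ρa, hρa, Ua, hUa, hea⟩, -⟩ := H.transport C.θ C.smθ C.null _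
    (fun p => (-2⁻¹ : ℂ) • M₂.reduced (fun _ => (C.e p.1, 0)) p.2) hN
    ((M₂.contDiff_reduced_const C.sme).const_smul (-2⁻¹ : ℂ)) z₀ (R + 1)
  obtain ⟨-, hhom⟩ := H.transport C.θ C.smθ C.null _
    (fun _ => (0 : Amp)) hN contDiff_const z₀ (R + 1)
  obtain ⟨ρb, hρb, Ub, hUb, hb0, heb⟩ := hhom x₀ hx ((0 : C3), 1)
  obtain ⟨ρc, hρc, Uc, hUc, hc0, hec⟩ := hhom x₀ hx (r, 0)
  refine ⟨min ρa (min ρb ρc), lt_min hρa (lt_min hρb hρc),
    ![fun p => M₂.leadC (C.θ p.1) (C.e p.1) (sl Ua p.1) p.2,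
      fun p => M₂.leadC (C.θ p.1) 0 (sl Ub p.1) p.2,
      fun p => M₂.leadC (C.θ p.1) 0 (sl Uc p.1) p.2], fun i => ?_, fun z hz i => ?_, ?_⟩
  · fin_cases i
    · exact M₂.contDiff_leadC C.smθ C.sme hUa
    · exact M₂.contDiff_leadC C.smθ contDiff_const hUb
    · exact M₂.contDiff_leadC C.smθ contDiff_const hUc
  · have hza : z ∈ ball z₀ ρa := ball_subset_ball (min_le_left _ _) hz
    have hzb : z ∈ ball z₀ ρb := ball_subset_ball ((min_le_right _ _).trans (min_le_left _ _)) hz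
    have hzc : z ∈ ball z₀ ρc := ball_subset_ball ((min_le_right _ _).trans (min_le_right _ _)) hz
    have h0 : ((0 : C3), (0 : ℂ)) = (0 : Amp) := rfl
    fin_cases i
    · exact H.orth_leadC (C.null z) (C.perp z) (contDiff_sl hUa z)
        fun x hx => hea z hza x (hsub hx)
    · refine H.orth_leadC (C.null z) (bdot_zero_right _) (contDiff_sl hUb z) fun x hx => ?_
      rw [h0, M₂.reduced_zero, smul_zero, add_zero]
      exact heb z hzb x (hsub hx)
    · refine H.orth_leadC (C.null z) (bdot_zero_right _) (contDiff_sl hUc z) fun x hx => ?_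
      rw [h0, M₂.reduced_zero, smul_zero, add_zero]
      exact hec z hzc x (hsub hx)
  · have eb : Dth (C.θ z₀) (sl Ub z₀) x₀ = M₂.tmat (C.θ z₀) x₀ ((0 : C3), 1) := by
      rw [← hb0]; exact heb z₀ (mem_ball_self hρb) x₀ hx
    have ec : Dth (C.θ z₀) (sl Uc z₀) x₀ = M₂.tmat (C.θ z₀) x₀ (r, 0) := by
      rw [← hc0]; exact hec z₀ (mem_ball_self hρc) x₀ hx
    have a0 : C.α z₀ 0 = 0 := by simpa using C.linα z₀ 0 0 0 0
    have b0 : C.β z₀ 0 = 0 := by simpa using C.linβ z₀ 0 0 0 0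
    have aθ : ∀ t : ℂ, C.α z₀ (t • C.θ z₀) = t ∧ C.β z₀ (t • C.θ z₀) = 0 := fun t => by
      constructor
      · simpa [C.αθ] using C.linα z₀ t 0 (C.θ z₀) 0
      · simpa [C.βθ] using C.linβ z₀ t 0 (C.θ z₀) 0
    have hb : crd C z₀ (M₂.leadC (C.θ z₀) 0 (sl Ub z₀) x₀) = ![M₂.mC x₀, 0, 0] := by
      simp [crd, Moduli.leadC, eb, sl, hb0, Moduli.tmat, bdot_zero_right, (aθ _).1, (aθ _).2]
    have hc : crd C z₀ (M₂.leadC (C.θ z₀) 0 (sl Uc z₀) x₀) =
        ![0, 0, M₂.nC x₀ - M₂.mC x₀ * M₂.cC x₀] := by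
      simp [crd, Moduli.leadC, ec, sl, hc0, Moduli.tmat, bdot_zero_right, hθr, a0, b0]
      ring
    have ha : C.β z₀ (M₂.nC x₀ • C.e z₀ + (M₂.mC x₀ * (sl Ua z₀ x₀).2) • C.θ z₀) = M₂.nC x₀ := by
      rw [C.linβ, C.βe, C.βθ, mul_one, mul_zero, add_zero]
    simp only [Matrix.cons_val_zero, Matrix.cons_val_one, Matrix.cons_val]
    rw [hb, hc]
    simp only [det3, crd, Moduli.leadC, Matrix.cons_val_zero, Matrix.cons_val_one, Matrix.cons_val,
      ha]
    have e : ∀ (a s : ℂ), a * (0 * (M₂.nC x₀ - M₂.mC x₀ * M₂.cC x₀) - 0 * 0) -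
        M₂.mC x₀ * (M₂.nC x₀ * (M₂.nC x₀ - M₂.mC x₀ * M₂.cC x₀) - s * 0) +
        0 * (M₂.nC x₀ * 0 - s * 0) =
        -(M₂.mC x₀ * M₂.nC x₀ * (M₂.nC x₀ - M₂.mC x₀ * M₂.cC x₀)) := fun a s => by ring
    rw [e]
    refine neg_ne_zero.2 (mul_ne_zero (mul_ne_zero ?_ ?_) (M₂.lead_scalar_ne x₀))
    · rw [M₂.mC_eq]; exact inv_ne_zero (M₂.muC_ne x₀)
    · rw [M₂.nC_eq]; exact inv_ne_zero (M₂.sqC_ne x₀)

end

end Vale.Agent.P136.Full
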