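import Mathlib
import Vale.Agent.P136.Full.Gauge.Cls

/-!
# P136: spanning systems of orthogonal amplitudes and the form they define

A spanning system writes every field perpendicular to `θ` as a combination of orthogonal amplitudes,
with a partition of unity. It makes every solution of the second system orthogonal, and defines a
bilinear form which does not depend on the system.
-/

open MeasureTheory Filter Set Metric
open scoped ContDiff Topology

namespace Vale.Agent.P136.Full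

noncomputable section

variable {Ω : Set Space} {M₁ M₂ : Moduli} {R : ℝ} {θ : C3}

/-- Orthogonal amplitudes spanning the fields perpendicular to `θ`. -/
structure Span (Ω : Set Space) (M₁ M₂ : Moduli) (R : ℝ) (θ : C3) where
  /-- The number of blocks. -/
  n : ℕ
  /-- The partition multipliers. -/
  a : Fin n → Space → ℂ
  /-- The denominators of the blocks. -/
  b : Fin n → Space → ℂ
  /-- The amplitudes. -/
  Y : Fin n → Fin 3 → Space → Amp
  /-- The coordinates. -/
  κ : Fin n → Fin 3 → Space → Amp →ₗ[ℂ] ℂ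
  sma : ∀ j, ContDiff ℝ ∞ (a j)
  smb : ∀ j, ContDiff ℝ ∞ (b j)
  closed_b : ∀ j, ∀ x ∈ ball (0 : Space) R, Dth θ (b j) x = 0
  orth : ∀ j i, OrthY Ω M₁ M₂ θ R (Y j i)
  smκ : ∀ j i (X : Space → Amp), ContDiff ℝ ∞ X → ContDiff ℝ ∞ fun x => κ j i x (X x)
  closed_κ : ∀ j i (X : Space → Amp), Sol M₂ R θ X →
    ∀ x ∈ ball (0 : Space) R, Dth θ (fun y => κ j i y (X y)) x = 0
  expand : ∀ j, ∀ x ∈ ball (0 : Space) R, ∀ v : Amp, bdot θ v.1 = 0 →
    b j x • v = ∑ i, κ j i x v • Y j i x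
  unit : ∀ x ∈ ball (0 : Space) R, ∑ j, a j x * b j x = 1

theorem Dth_congr_ball {E : Type*} [NormedAddCommGroup E] [NormedSpace ℂ E] {f g : Space → E}
    (h : ∀ x ∈ ball (0 : Space) R, f x = g x) (θ : C3) {x : Space}
    (hx : x ∈ ball (0 : Space) R) : Dth θ f x = Dth θ g x := by
  have he : f =ᶠ[𝓝 x] g := eventually_of_mem (isOpen_ball.mem_nhds hx) h
  simp [Dth, pd_congr he]

theorem Dth_fsum {E : Type*} [NormedAddCommGroup E] [NormedSpace ℂ E] {ι : Type*} (s : Finset ι)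
    {f : ι → Space → E} (θ : C3) {x : Space} (h : ∀ k ∈ s, DifferentiableAt ℝ (f k) x) :
    Dth θ (fun y => ∑ k ∈ s, f k y) x = ∑ k ∈ s, Dth θ (f k) x := by
  simp only [Dth, pd_sum s _ h, Finset.smul_sum]
  exact Finset.sum_comm

theorem contDiff_smulC {a : Space → ℂ} {f : Space → Amp} (ha : ContDiff ℝ ∞ a)
    (hf : ContDiff ℝ ∞ f) : ContDiff ℝ ∞ fun x => a x • f x := ha.smul hf

theorem dot4_sum_right {ι : Type*} (s : Finset ι) (v : Amp) (w : ι → Amp) :
    dot4 v (∑ k ∈ s, w k) = ∑ k ∈ s, dot4 v (w k) :=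
  map_sum (AddMonoidHom.mk' (dot4 v) fun a b => dot4_add_right v a b) w s

namespace Span

variable (S : Span Ω M₁ M₂ R θ)

/-- The derivative of the partition of unity. -/
theorem sum_Da_b {x : Space} (hx : x ∈ ball (0 : Space) R) :
    ∑ j, Dth θ (S.a j) x * S.b j x = 0 := by
  have hd : ∀ j, DifferentiableAt ℝ (fun y => S.a j y * S.b j y) x := fun j =>
    ((S.sma j).differentiable (by simp) x).fun_mul ((S.smb j).differentiable (by simp) x)
  have h := Dth_congr_ball (g := fun _ => (1 : ℂ)) S.unit θ hx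
  rw [Dth_fsum _ θ fun j _ => hd j] at h
  simp only [Dth_mul θ ((S.sma _).differentiable (by simp) x)
    ((S.smb _).differentiable (by simp) x), S.closed_b _ x hx, mul_zero, add_zero] at h
  rw [h]
  simp [Dth, pd_const]

theorem expand_sum {x : Space} (hx : x ∈ ball (0 : Space) R) {v : Amp} (hv : bdot θ v.1 = 0) :
    v = ∑ p : Fin S.n × Fin 3, (S.a p.1 x * S.κ p.1 p.2 x v) • S.Y p.1 p.2 x := by
  conv_lhs => rw [← one_smul ℂ v, ← S.unit x hx, Finset.sum_smul]
  rw [Fintype.sum_prod_type]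
  refine Finset.sum_congr rfl fun j _ => ?_
  rw [mul_smul, S.expand j x hx v hv, Finset.smul_sum]
  simp [smul_smul]

theorem orth_block (H : Ctx Ω M₁ M₂ R) {Z : Space → Amp} (hZ : Sol M₂ R θ Z) (j : Fin S.n) :
    OrthY Ω M₁ M₂ θ R fun x => S.b j x • Z x := by
  have hs := hZ.smul_fun (S.smb j) (S.closed_b j)
  refine ⟨hs.smooth, hs.perp, hs.eqn, fun η hη hη0 => ?_⟩
  have ho := fun i => H.orth_smul_fun (S.orth j i) (S.smκ j i Z hZ.smooth) (S.closed_κ j i Z hZ)
  have hc : ∀ i, IntegrableOn (fun x => dot4 (η x)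
      (M₂.amat θ x (S.κ j i x (Z x) • S.Y j i x) - M₁.amat θ x (S.κ j i x (Z x) • S.Y j i x))) Ω :=
    fun i => H.int (contDiff_dot4 hη
      ((contDiff_amat_sl M₂ θ (ho i).smooth).sub (contDiff_amat_sl M₁ θ (ho i).smooth))).continuous
  rw [← Finset.sum_eq_zero (s := Finset.univ) fun i _ => (ho i).orth η hη hη0,
    ← integral_finsetSum _ fun i _ => hc i]
  refine setIntegral_congr_fun H.open_Ω.measurableSet fun x hx => ?_
  simp only [S.expand j x (H.mem_ball hx) _ (hZ.perp x (H.mem_ball hx)), ← Moduli.amatL_apply,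
    map_sum, ← Finset.sum_sub_distrib, dot4_sum_right]

include S in
/-- Every solution of the second system is orthogonal. -/
theorem orth_of_sol (H : Ctx Ω M₁ M₂ R) (hθ : IsNull θ) {Z : Space → Amp} (hZ : Sol M₂ R θ Z) :
    OrthY Ω M₁ M₂ θ R Z := by
  refine ⟨hZ.smooth, hZ.perp, hZ.eqn, fun η hη hη0 => ?_⟩
  have hDa : ∀ j, ContDiff ℝ ∞ (Dth θ (S.a j)) := fun j => contDiff_Dth (S.sma j) θ
  have ha : ∀ j, IsAdj M₁ R θ (fun x => Dth θ (S.a j) x • η x) fun x => S.a j x • η x := fun j => by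
    refine ⟨(S.sma j).smul hη, fun x hx => ?_⟩
    rw [Dth_smul θ ((S.sma j).differentiable (by simp) x) (differentiableAt_amp hη x),
      M₁.amatT_smul, add_assoc, ← smul_add, hη0 x hx, smul_zero, add_zero]
  have h1 : ∫ x in Ω, dot4 (η x) (M₂.amat θ x (Z x) - M₁.amat θ x (Z x)) =
      ∑ j, P0 Ω M₁ M₂ R θ (fun x => Dth θ (S.a j) x • η x) fun x => S.b j x • Z x := by
    simp only [fun j => H.P0_eq (ξ := fun x => Dth θ (S.a j) x • η x) hθ (contDiff_smulC (hDa j) hη)
      (S.orth_block H hZ j) (ha j), Pz]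
    rw [← integral_finsetSum _ fun j _ => H.int
      (continuous_pzInt (η := fun x => S.a j x • η x) θ (ha j).1 (contDiff_smulC (hDa j) hη)
        (contDiff_smulC (S.smb j) hZ.smooth))]
    refine setIntegral_congr_fun H.open_Ω.measurableSet fun x hx => ?_
    simp only [M₂.amat_smul, M₁.amat_smul, ← smul_sub, dot4_smul_left, dot4_smul_right,
      Finset.sum_add_distrib, ← mul_assoc, ← Finset.sum_mul]
    have e : ∑ j, S.b j x * Dth θ (S.a j) x = 0 := by
      simpa [mul_comm] using S.sum_Da_b (H.mem_ball hx)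
    have e' : ∑ j, S.b j x * S.a j x = 1 := by
      simpa [mul_comm] using S.unit x (H.mem_ball hx)
    rw [e, e', zero_mul, zero_add, one_mul]
  rw [h1]
  have h2 : ∀ j, P0 Ω M₁ M₂ R θ (fun x => Dth θ (S.a j) x • η x) (fun x => S.b j x • Z x) =
      ∑ k, P0 Ω M₁ M₂ R θ (fun x => (S.b j x * S.a k x * Dth θ (S.a j) x) • η x)
        fun x => S.b k x • Z x := fun j => by
    have hk : ∀ k, ContDiff ℝ ∞ fun x => (S.b k x * S.a k x * Dth θ (S.a j) x) • η x := fun k =>
      contDiff_smulC (((S.smb k).mul (S.sma k)).mul (hDa j)) hη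
    rw [H.P0_congr_left (ξ' := fun x => ∑ k, (S.b k x * S.a k x * Dth θ (S.a j) x) • η x) hθ
      (contDiff_smulC (hDa j) hη) (ContDiff.sum fun k _ => hk k) (S.orth_block H hZ j)
      fun x hx => by
        simp only [← Finset.sum_smul, ← Finset.sum_mul, mul_comm (S.b _ x), S.unit x hx, one_mul],
      H.P0_sum_left hθ Finset.univ hk (S.orth_block H hZ j)]
    refine Finset.sum_congr rfl fun k _ => ?_
    have hm : ContDiff ℝ ∞ fun x => (S.a k x * Dth θ (S.a j) x) • η x :=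
      contDiff_smulC ((S.sma k).mul (hDa j)) hη
    simp only [mul_assoc, mul_smul (S.b _ _)]
    rw [H.P0_move hθ (S.smb k) (S.closed_b k) hm (S.orth_block H hZ j),
      H.P0_move hθ (S.smb j) (S.closed_b j) hm (S.orth_block H hZ k)]
    simp only [smul_comm (S.b k _) (S.b j _)]
  simp only [h2]
  rw [Finset.sum_comm]
  refine Finset.sum_eq_zero fun k _ => ?_
  have hj : ∀ j, ContDiff ℝ ∞ fun x => (S.b j x * S.a k x * Dth θ (S.a j) x) • η x := fun j =>
    contDiff_smulC (((S.smb j).mul (S.sma k)).mul (hDa j)) hη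
  rw [← H.P0_sum_left hθ Finset.univ hj (S.orth_block H hZ k)]
  refine H.P0_zero_left hθ (ContDiff.sum fun j _ => hj j) (S.orth_block H hZ k) fun x hx => ?_
  rw [← Finset.sum_smul, Finset.sum_congr rfl fun j _ => show S.b j x * S.a k x * Dth θ (S.a j) x =
      S.a k x * (Dth θ (S.a j) x * S.b j x) by ring, ← Finset.mul_sum, S.sum_Da_b hx, mul_zero,
    zero_smul]

/-- The form of a spanning system. -/
def val (ξ X : Space → Amp) : ℂ :=
  ∑ j, ∑ i, P0 Ω M₁ M₂ R θ (fun x => (S.a j x * S.κ j i x (X x)) • ξ x) (S.Y j i)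

theorem contDiff_coef {X : Space → Amp} (hX : ContDiff ℝ ∞ X) (j : Fin S.n) (i : Fin 3) :
    ContDiff ℝ ∞ fun x => S.a j x * S.κ j i x (X x) :=
  (S.sma j).mul (S.smκ j i X hX)

theorem contDiff_term {ξ X : Space → Amp} (hξ : ContDiff ℝ ∞ ξ) (hX : ContDiff ℝ ∞ X)
    (j : Fin S.n) (i : Fin 3) :
    ContDiff ℝ ∞ fun x => (S.a j x * S.κ j i x (X x)) • ξ x :=
  (S.contDiff_coef hX j i).smul hξ

/-- The form computed from any expansion. -/
theorem val_eq (H : Ctx Ω M₁ M₂ R) (hθ : IsNull θ) {ξ X : Space → Amp} (hξ : ContDiff ℝ ∞ ξ)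
    (hX : ContDiff ℝ ∞ X) {L : Type*} [Fintype L] {c : L → Space → ℂ} {Z : L → Space → Amp}
    (hc : ∀ l, ContDiff ℝ ∞ (c l)) (hZ : ∀ l, Sol M₂ R θ (Z l))
    (he : ∀ x ∈ ball (0 : Space) R, X x = ∑ l, c l x • Z l x) :
    S.val ξ X = ∑ l, P0 Ω M₁ M₂ R θ (fun x => c l x • ξ x) (Z l) := by
  have hZo := fun l => S.orth_of_sol H hθ (hZ l)
  have hm : ∀ j l, ContDiff ℝ ∞ fun x => (S.a j x * c l x) • ξ x := fun j l =>
    ((S.sma j).mul (hc l)).smul hξ
  have key : ∀ j i, P0 Ω M₁ M₂ R θ (fun x => (S.a j x * S.κ j i x (X x)) • ξ x) (S.Y j i) =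
      ∑ l, P0 Ω M₁ M₂ R θ (fun x => (S.a j x * c l x) • ξ x)
        (fun x => S.κ j i x (Z l x) • S.Y j i x) := fun j i => by
    have hl : ∀ l, ContDiff ℝ ∞ fun x =>
        S.κ j i x (Z l x) • ((S.a j x * c l x) • ξ x) := fun l =>
      (S.smκ j i _ (hZ l).smooth).smul (hm j l)
    rw [H.P0_congr_left (ξ' := fun x => ∑ l, S.κ j i x (Z l x) • ((S.a j x * c l x) • ξ x)) hθ
      (S.contDiff_term hξ hX j i) (ContDiff.sum fun l _ => hl l) (S.orth j i)
      fun x hx => by
        simp only [he x hx, map_sum, map_smul, smul_eq_mul, smul_smul, Finset.mul_sum,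
          Finset.sum_smul]
        exact Finset.sum_congr rfl fun l _ => by ring_nf,
      H.P0_sum_left hθ Finset.univ hl (S.orth j i)]
    exact Finset.sum_congr rfl fun l _ =>
      H.P0_move hθ (S.smκ j i _ (hZ l).smooth) (S.closed_κ j i _ (hZ l)) (hm j l) (S.orth j i)
  have key2 : ∀ j l, ∑ i, P0 Ω M₁ M₂ R θ (fun x => (S.a j x * c l x) • ξ x)
      (fun x => S.κ j i x (Z l x) • S.Y j i x) =
      P0 Ω M₁ M₂ R θ (fun x => (S.b j x * (S.a j x * c l x)) • ξ x) (Z l) := fun j l => by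
    rw [H.P0_sum_right (Z := fun x => S.b j x • Z l x) hθ Finset.univ (hm j l)
      (fun i => contDiff_smulC (S.smκ j i _ (hZ l).smooth) (S.orth j i).smooth)
      fun x hx => (S.expand j x (H.mem_ball hx) _ ((hZ l).perp x (H.mem_ball hx))).symm,
      ← H.P0_move hθ (S.smb j) (S.closed_b j) (hm j l) (hZo l)]
    simp only [smul_smul]
  simp only [val, key]
  rw [Finset.sum_congr rfl fun j _ => Finset.sum_comm]
  simp only [key2]
  rw [Finset.sum_comm]
  refine Finset.sum_congr rfl fun l _ => ?_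
  have hj : ∀ j, ContDiff ℝ ∞ fun x => (S.b j x * (S.a j x * c l x)) • ξ x := fun j =>
    ((S.smb j).mul ((S.sma j).mul (hc l))).smul hξ
  rw [← H.P0_sum_left hθ Finset.univ hj (hZo l)]
  refine H.P0_congr_left hθ (ContDiff.sum fun j _ => hj j) (contDiff_smulC (hc l) hξ) (hZo l) fun x hx => ?_
  rw [← Finset.sum_smul, Finset.sum_congr rfl fun j _ => show S.b j x * (S.a j x * c l x) =
      S.a j x * S.b j x * c l x by ring, ← Finset.sum_mul, S.unit x hx, one_mul]

/-- The form does not depend on the spanning system. -/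
theorem val_indep (H : Ctx Ω M₁ M₂ R) (hθ : IsNull θ) (S' : Span Ω M₁ M₂ R θ)
    {ξ X : Space → Amp} (hξ : ContDiff ℝ ∞ ξ) (hX : ContDiff ℝ ∞ X)
    (hp : ∀ x ∈ ball (0 : Space) R, bdot θ (X x).1 = 0) : S.val ξ X = S'.val ξ X := by
  rw [S.val_eq H hθ hξ hX (c := fun p : Fin S'.n × Fin 3 => fun x =>
      S'.a p.1 x * S'.κ p.1 p.2 x (X x)) (Z := fun p => S'.Y p.1 p.2)
    (fun p => S'.contDiff_coef hX p.1 p.2) (fun p => (S'.orth p.1 p.2).sol)
    fun x hx => S'.expand_sum hx (hp x hx), val, Fintype.sum_prod_type]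

theorem val_add_left (H : Ctx Ω M₁ M₂ R) (hθ : IsNull θ) {ξ ξ' X : Space → Amp}
    (hξ : ContDiff ℝ ∞ ξ) (hξ' : ContDiff ℝ ∞ ξ') (hX : ContDiff ℝ ∞ X) :
    S.val (ξ + ξ') X = S.val ξ X + S.val ξ' X := by
  simp only [val, ← Finset.sum_add_distrib]
  refine Finset.sum_congr rfl fun j _ => Finset.sum_congr rfl fun i _ => ?_
  rw [← H.P0_add_left hθ (S.contDiff_term hξ hX j i) (S.contDiff_term hξ' hX j i)
    (S.orth j i)]
  congr 1
  funext x
  simp [smul_add]

theorem val_add_right (H : Ctx Ω M₁ M₂ R) (hθ : IsNull θ) {ξ X X' : Space → Amp}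
    (hξ : ContDiff ℝ ∞ ξ) (hX : ContDiff ℝ ∞ X) (hX' : ContDiff ℝ ∞ X') :
    S.val ξ (X + X') = S.val ξ X + S.val ξ X' := by
  simp only [val, ← Finset.sum_add_distrib]
  refine Finset.sum_congr rfl fun j _ => Finset.sum_congr rfl fun i _ => ?_
  rw [← H.P0_add_left hθ (S.contDiff_term hξ hX j i) (S.contDiff_term hξ hX' j i)
    (S.orth j i)]
  congr 1
  funext x
  simp [mul_add, add_smul]

theorem val_move (f : Space → ℂ) (ξ X : Space → Amp) :
    S.val (fun x => f x • ξ x) X = S.val ξ fun x => f x • X x := by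
  simp only [val, map_smul, smul_eq_mul, smul_smul]
  refine Finset.sum_congr rfl fun j _ => Finset.sum_congr rfl fun i _ => ?_
  congr 1
  funext x
  ring_nf

theorem val_smul_left (H : Ctx Ω M₁ M₂ R) (hθ : IsNull θ) (a : ℂ) {ξ X : Space → Amp}
    (hξ : ContDiff ℝ ∞ ξ) (hX : ContDiff ℝ ∞ X) :
    S.val (fun x => a • ξ x) X = a * S.val ξ X := by
  simp only [val, Finset.mul_sum]
  refine Finset.sum_congr rfl fun j _ => Finset.sum_congr rfl fun i _ => ?_
  rw [← H.P0_smul_left hθ a (S.contDiff_term hξ hX j i) (S.orth j i)]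
  simp only [smul_comm a]

theorem val_smul_right (H : Ctx Ω M₁ M₂ R) (hθ : IsNull θ) (a : ℂ) {ξ X : Space → Amp}
    (hξ : ContDiff ℝ ∞ ξ) (hX : ContDiff ℝ ∞ X) :
    S.val ξ (fun x => a • X x) = a * S.val ξ X := by
  rw [← S.val_move (fun _ => a), S.val_smul_left H hθ a hξ hX]

/-- A spanning system for a rescaled vector. -/
def scale {c : ℂ} (hc : c ≠ 0) : Span Ω M₁ M₂ R (c • θ) :=
  { n := S.n, a := S.a, b := S.b, Y := S.Y, κ := S.κ, sma := S.sma, smb := S.smb
    closed_b := fun j x hx => by rw [Dth_smul_vec, S.closed_b j x hx, smul_zero]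
    orth := fun j i => (S.orth j i).scale hc
    smκ := S.smκ
    closed_κ := fun j i X hX x hx => by
      have h : Sol M₂ R θ X := ⟨hX.smooth,
        fun y hy => by simpa [bdot_smul_left, hc] using hX.perp y hy,
        fun y hy => by
          have := hX.eqn y hy
          rw [Dth_smul_vec, M₂.amat_smul_dir] at this
          exact smul_right_injective _ hc this⟩
      rw [Dth_smul_vec, S.closed_κ j i X h x hx, smul_zero]
    expand := fun j x hx v hv => S.expand j x hx v (by simpa [bdot_smul_left, hc] using hv)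
    unit := S.unit }

theorem scale_val (H : Ctx Ω M₁ M₂ R) (hθ : IsNull θ) {c : ℂ} (hc : c ≠ 0) {ξ X : Space → Amp}
    (hξ : ContDiff ℝ ∞ ξ) (hX : ContDiff ℝ ∞ X) : (S.scale hc).val ξ X = S.val ξ X :=
  Finset.sum_congr rfl fun j _ => Finset.sum_congr rfl fun i _ =>
    H.P0_scale hθ hc (S.contDiff_term hξ hX j i) (S.orth j i)

end Span

end

end Vale.Agent.P136.Full
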