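import Mathlib
import Vale.Agent.P136.Full.Gauge.Lead
import Vale.Agent.P136.Full.Gauge.Span

/-!
# P136: families of spanning systems

Three independent amplitudes near a point, the determinant normalised to be closed along `θ`, and a
finite cover of the closed ball.
-/

open MeasureTheory Filter Set Metric
open scoped ContDiff Topology ComplexConjugate

namespace Vale.Agent.P136.Full

noncomputable section

namespace Chart

variable (C : Chart)

/-- The coordinates as a linear map. -/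
def crdL (z : ℂ) : Amp →L[ℂ] C3 :=
  LinearMap.toContinuousLinearMap
    { toFun := crd C z
      map_add' := fun v w => by
        have h1 := C.linα z 1 1 v.1 w.1
        have h2 := C.linβ z 1 1 v.1 w.1
        simp only [one_smul, one_mul] at h1 h2
        funext i
        fin_cases i <;> simp [crd, h1, h2]
      map_smul' := fun a v => by
        have h1 := C.linα z a 0 v.1 0
        have h2 := C.linβ z a 0 v.1 0
        simp only [zero_smul, add_zero, zero_mul] at h1 h2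
        funext i
        fin_cases i <;> simp [crd, h1, h2] }

@[simp] theorem crdL_apply (z : ℂ) (v : Amp) : C.crdL z v = crd C z v := rfl

theorem contDiff_crd {P : Type*} [NormedAddCommGroup P] [NormedSpace ℝ P] {z : P → ℂ}
    {v : P → Amp} (hz : ContDiff ℝ ∞ z) (hv : ContDiff ℝ ∞ v) :
    ContDiff ℝ ∞ fun p => crd C (z p) (v p) :=
  contDiff_pi.2 fun i => by
    fin_cases i
    · show ContDiff ℝ ∞ fun p => C.α (z p) (v p).1
      exact C.smα.comp (hz.prodMk hv.fst)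
    · show ContDiff ℝ ∞ fun p => C.β (z p) (v p).1
      exact C.smβ.comp (hz.prodMk hv.fst)
    · simpa [crd] using hv.snd

/-- An amplitude from its coordinates. -/
def rebuild (z : ℂ) (c : C3) : Amp := (c 0 • C.θ z + c 1 • C.e z, c 2)

theorem rebuild_crd (z : ℂ) {v : Amp} (hv : bdot (C.θ z) v.1 = 0) :
    C.rebuild z (crd C z v) = v := by
  refine Prod.ext ?_ ?_
  · simp only [rebuild, crd, Matrix.cons_val_zero, Matrix.cons_val_one]
    exact (C.dec z v.1 hv).symm
  · simp [rebuild, crd]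

theorem crd_inj (z : ℂ) {v w : Amp} (hv : bdot (C.θ z) v.1 = 0) (hw : bdot (C.θ z) w.1 = 0)
    (h : crd C z v = crd C z w) : v = w := by
  rw [← C.rebuild_crd z hv, h, C.rebuild_crd z hw]

variable (M : Moduli)

/-- The matrix of the amplitude system in coordinates, column by column. -/
def mat (z : ℂ) (x : Space) (p : Fin 3) : C3 :=
  crd C z (M.amat (C.θ z) x (C.rebuild z (Pi.single p 1)))

/-- Its trace. -/
def tr (z : ℂ) (x : Space) : ℂ := C.mat M z x 0 0 + C.mat M z x 1 1 + C.mat M z x 2 2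

theorem contDiff_mat (p : Fin 3) : ContDiff ℝ ∞ fun q : ℂ × Space => C.mat M q.1 q.2 p := by
  refine C.contDiff_crd contDiff_fst (M.contDiff_amat (C.smθ.comp contDiff_fst) contDiff_snd ?_)
  exact ((((C.smθ.comp contDiff_fst).const_smul ((Pi.single p 1 : C3) 0)).add
    ((C.sme.comp contDiff_fst).const_smul ((Pi.single p 1 : C3) 1))).prodMk contDiff_const)

theorem contDiff_tr : ContDiff ℝ ∞ fun q : ℂ × Space => C.tr M q.1 q.2 := by
  have h : ∀ p k, ContDiff ℝ ∞ fun q : ℂ × Space => C.mat M q.1 q.2 p k := fun p k =>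
    (contDiff_apply ℝ ℂ k).comp (C.contDiff_mat M p)
  exact ((h 0 0).add (h 1 1)).add (h 2 2)

theorem crd_amat (z : ℂ) (x : Space) {v : Amp} (hv : bdot (C.θ z) v.1 = 0) :
    crd C z (M.amat (C.θ z) x v) = ∑ p, crd C z v p • C.mat M z x p := by
  have e : v = ∑ p, crd C z v p • C.rebuild z (Pi.single p 1) := by
    conv_lhs => rw [← C.rebuild_crd z hv]
    refine Prod.ext ?_ ?_ <;> simp [rebuild, Fin.sum_univ_three]
  conv_lhs => rw [e, ← M.amatL_apply, map_sum, ← C.crdL_apply, map_sum]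
  simp [mat]

theorem Dth_crd {R : ℝ} (z : ℂ) {X : Space → Amp} (hX : Sol M R (C.θ z) X) {x : Space}
    (hx : x ∈ ball (0 : Space) R) :
    Dth (C.θ z) (fun y => crd C z (X y)) x = ∑ p, crd C z (X x) p • C.mat M z x p := by
  have h := Dth_clm (C.θ z) (C.crdL z) (differentiableAt_amp hX.smooth x)
  simp only [crdL_apply] at h
  rw [h, hX.eqn x hx, C.crd_amat M z x (hX.perp x hx)]

end Chart

theorem Dth_det3 {θ : C3} {x : Space} {u v w : Space → C3} {h : Space → ℂ} {A : Fin 3 → C3}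
    (hu : DifferentiableAt ℝ u x) (hv : DifferentiableAt ℝ v x) (hw : DifferentiableAt ℝ w x)
    (hh : DifferentiableAt ℝ h x) (eu : Dth θ u x = ∑ p, u x p • A p)
    (ev : Dth θ v x = ∑ p, v x p • A p) (ew : Dth θ w x = ∑ p, w x p • A p)
    (eh : Dth θ h x = -((A 0 0 + A 1 1 + A 2 2) * h x)) :
    Dth θ (fun y => h y * det3 (u y) (v y) (w y)) x = 0 := by
  have cu : ∀ k, DifferentiableAt ℝ (fun y => u y k) x := differentiableAt_pi.1 hu
  have cv : ∀ k, DifferentiableAt ℝ (fun y => v y k) x := differentiableAt_pi.1 hv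
  have cw : ∀ k, DifferentiableAt ℝ (fun y => w y k) x := differentiableAt_pi.1 hw
  have t1 := ((cv 1).fun_mul (cw 2)).fun_sub ((cv 2).fun_mul (cw 1))
  have t2 := ((cu 1).fun_mul (cw 2)).fun_sub ((cu 2).fun_mul (cw 1))
  have t3 := ((cu 1).fun_mul (cv 2)).fun_sub ((cu 2).fun_mul (cv 1))
  simp only [det3]
  rw [Dth_mul θ hh ((((cu 0).fun_mul t1).fun_sub ((cv 0).fun_mul t2)).fun_add ((cw 0).fun_mul t3)),
    Dth_add θ (((cu 0).fun_mul t1).fun_sub ((cv 0).fun_mul t2)) ((cw 0).fun_mul t3),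
    Dth_sub θ ((cu 0).fun_mul t1) ((cv 0).fun_mul t2),
    Dth_mul θ (cu 0) t1, Dth_mul θ (cv 0) t2, Dth_mul θ (cw 0) t3,
    Dth_sub θ ((cv 1).fun_mul (cw 2)) ((cv 2).fun_mul (cw 1)),
    Dth_sub θ ((cu 1).fun_mul (cw 2)) ((cu 2).fun_mul (cw 1)),
    Dth_sub θ ((cu 1).fun_mul (cv 2)) ((cu 2).fun_mul (cv 1)),
    Dth_mul θ (cv 1) (cw 2), Dth_mul θ (cv 2) (cw 1), Dth_mul θ (cu 1) (cw 2),
    Dth_mul θ (cu 2) (cw 1), Dth_mul θ (cu 1) (cv 2), Dth_mul θ (cu 2) (cv 1)]
  simp only [Dth_apply θ _ hu, Dth_apply θ _ hv, Dth_apply θ _ hw, eu, ev, ew, eh,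
    Fin.sum_univ_three, Pi.add_apply, Pi.smul_apply, smul_eq_mul]
  ring

/-- The numerators of Cramer's rule. -/
def num (U : Fin 3 → C3) (i : Fin 3) : C3 →ₗ[ℂ] ℂ where
  toFun c := det3 (Function.update U i c 0) (Function.update U i c 1) (Function.update U i c 2)
  map_add' c c' := by fin_cases i <;> simp [det3, Function.update] <;> ring
  map_smul' a c := by fin_cases i <;> simp [det3, Function.update] <;> ring

theorem cramer3 (U : Fin 3 → C3) (c : C3) :
    det3 (U 0) (U 1) (U 2) • c = ∑ i, num U i c • U i := by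
  funext k
  fin_cases k <;> simp [num, det3, Function.update, Fin.sum_univ_three] <;> ring

theorem pd_exp {S : Space → ℂ} {x : Space} (i : Fin 3) (hS : DifferentiableAt ℝ S x) :
    pd i (fun y => Complex.exp (S y)) x = Complex.exp (S x) * pd i S x := by
  have h := ((Complex.hasDerivAt_exp (S x)).comp_hasFDerivAt x hS.hasFDerivAt).fderiv
  simp only [pd]
  rw [show (fun y => Complex.exp (S y)) = Complex.exp ∘ S from rfl, h]
  simp

theorem Dth_exp {S : Space → ℂ} {x : Space} (θ : C3) (hS : DifferentiableAt ℝ S x) :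
    Dth θ (fun y => Complex.exp (S y)) x = Complex.exp (S x) * Dth θ S x := by
  simp only [Dth, pd_exp _ hS, smul_eq_mul, Finset.mul_sum]
  exact Finset.sum_congr rfl fun i _ => by ring

/-- Spanning systems depending smoothly on the parameter of a chart. -/
structure Fam (Ω : Set Space) (M₁ M₂ : Moduli) (R : ℝ) (C : Chart) (z₀ : ℂ) where
  /-- The radius in the parameter. -/
  ρ : ℝ
  ρ_pos : 0 < ρ
  /-- The number of blocks. -/
  n : ℕ
  /-- The partition multipliers. -/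
  a : Fin n → ℂ × Space → ℂ
  /-- The denominators. -/
  b : Fin n → ℂ × Space → ℂ
  /-- The amplitudes. -/
  Y : Fin n → Fin 3 → ℂ × Space → Amp
  /-- The coordinates. -/
  κ : Fin n → Fin 3 → ℂ × Space → Amp →ₗ[ℂ] ℂ
  sma : ∀ j, ContDiff ℝ ∞ (a j)
  smb : ∀ j, ContDiff ℝ ∞ (b j)
  smY : ∀ j i, ContDiff ℝ ∞ (Y j i)
  smκ : ∀ j i (X : ℂ × Space → Amp), ContDiff ℝ ∞ X → ContDiff ℝ ∞ fun p => κ j i p (X p)
  closed_b : ∀ z ∈ ball z₀ ρ, ∀ j, ∀ x ∈ ball (0 : Space) R, Dth (C.θ z) (sl (b j) z) x = 0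
  orth : ∀ z ∈ ball z₀ ρ, ∀ j i, OrthY Ω M₁ M₂ (C.θ z) R (sl (Y j i) z)
  closed_κ : ∀ z ∈ ball z₀ ρ, ∀ j i (X : Space → Amp), Sol M₂ R (C.θ z) X →
    ∀ x ∈ ball (0 : Space) R, Dth (C.θ z) (fun y => κ j i (z, y) (X y)) x = 0
  expand : ∀ z ∈ ball z₀ ρ, ∀ j, ∀ x ∈ ball (0 : Space) R, ∀ v : Amp, bdot (C.θ z) v.1 = 0 →
    b j (z, x) • v = ∑ i, κ j i (z, x) v • Y j i (z, x)
  unit : ∀ z ∈ ball z₀ ρ, ∀ x ∈ ball (0 : Space) R, ∑ j, a j (z, x) * b j (z, x) = 1

variable {Ω : Set Space} {M₁ M₂ : Moduli} {R : ℝ}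

/-- The spanning system at a parameter. -/
def Fam.span {C : Chart} {z₀ : ℂ} (F : Fam Ω M₁ M₂ R C z₀) {z : ℂ} (hz : z ∈ ball z₀ F.ρ) :
    Span Ω M₁ M₂ R (C.θ z) where
  n := F.n
  a j := sl (F.a j) z
  b j := sl (F.b j) z
  Y j i := sl (F.Y j i) z
  κ j i x := F.κ j i (z, x)
  sma j := contDiff_sl (F.sma j) z
  smb j := contDiff_sl (F.smb j) z
  closed_b := F.closed_b z hz
  orth := F.orth z hz
  smκ j i X hX := contDiff_sl (F.smκ j i (fun p => X p.2) (hX.comp contDiff_snd)) z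
  closed_κ := F.closed_κ z hz
  expand := F.expand z hz
  unit := F.unit z hz

/-- A block with nonvanishing determinant at a point. -/
theorem Ctx.exists_block (H : Ctx Ω M₁ M₂ R) (C : Chart) (z₀ : ℂ) {x₀ : Space}
    (hx₀ : x₀ ∈ closedBall (0 : Space) R) :
    ∃ ρ > 0, ∃ b : ℂ × Space → ℂ, ∃ Y : Fin 3 → ℂ × Space → Amp,
      ∃ κ : Fin 3 → ℂ × Space → Amp →ₗ[ℂ] ℂ, ContDiff ℝ ∞ b ∧ b (z₀, x₀) ≠ 0 ∧
      (∀ i, ContDiff ℝ ∞ (Y i)) ∧
      (∀ i (X : ℂ × Space → Amp), ContDiff ℝ ∞ X → ContDiff ℝ ∞ fun p => κ i p (X p)) ∧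
      ∀ z ∈ ball z₀ ρ, (∀ x ∈ ball (0 : Space) R, Dth (C.θ z) (sl b z) x = 0) ∧
        (∀ i, OrthY Ω M₁ M₂ (C.θ z) R (sl (Y i) z)) ∧
        (∀ i (X : Space → Amp), Sol M₂ R (C.θ z) X →
          ∀ x ∈ ball (0 : Space) R, Dth (C.θ z) (fun y => κ i (z, y) (X y)) x = 0) ∧
        ∀ x ∈ ball (0 : Space) R, ∀ v : Amp, bdot (C.θ z) v.1 = 0 →
          b (z, x) • v = ∑ i, κ i (z, x) v • Y i (z, x) := by
  obtain ⟨ρ₁, hρ₁, Y, hY, hYo, hdet⟩ := H.exists_triple C z₀ hx₀
  obtain ⟨⟨ρ₂, hρ₂, S, hS, hSe⟩, -⟩ := H.transport C.θ C.smθ C.null (fun _ => 0)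
    (fun p => ((0 : C3), -C.tr M₂ p.1 p.2)) contDiff_const
    (contDiff_const.prodMk (C.contDiff_tr M₂).neg) z₀ R
  set h : ℂ × Space → ℂ := fun p => Complex.exp (S p).2 with hh
  have hsm : ContDiff ℝ ∞ h := (Complex.contDiff_exp (𝕜 := ℝ)).comp hS.snd
  set U : ℂ × Space → Fin 3 → C3 := fun p i => crd C p.1 (Y i p) with hU
  have hUs : ∀ i, ContDiff ℝ ∞ fun p => U p i := fun i => C.contDiff_crd contDiff_fst (hY i)
  have hdet3 : ∀ {P : Type} [NormedAddCommGroup P] [NormedSpace ℝ P] {u v w : P → C3},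
      ContDiff ℝ ∞ u → ContDiff ℝ ∞ v → ContDiff ℝ ∞ w →
        ContDiff ℝ ∞ fun p => det3 (u p) (v p) (w p) := fun {P} _ _ {u v w} hu hv hw => by
    have cu := contDiff_pi.1 hu
    have cv := contDiff_pi.1 hv
    have cw := contDiff_pi.1 hw
    simp only [det3]
    fun_prop
  refine ⟨min ρ₁ ρ₂, lt_min hρ₁ hρ₂, fun p => h p * det3 (U p 0) (U p 1) (U p 2), Y,
    fun i p => h p • (num (U p) i).comp (C.crdL p.1).toLinearMap,
    hsm.mul (hdet3 (hUs 0) (hUs 1) (hUs 2)), mul_ne_zero (Complex.exp_ne_zero _) hdet, hY,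
    fun i X hX => ?_, fun z hz => ?_⟩
  · have hc := C.contDiff_crd contDiff_fst hX
    refine hsm.mul ?_
    fin_cases i
    · simpa [num, Function.update, hU] using hdet3 hc (hUs 1) (hUs 2)
    · simpa [num, Function.update, hU] using hdet3 (hUs 0) hc (hUs 2)
    · simpa [num, Function.update, hU] using hdet3 (hUs 0) (hUs 1) hc
  have ho := hYo z (ball_subset_ball (min_le_left _ _) hz)
  have hsd : ∀ x, DifferentiableAt ℝ (sl h z) x := fun x =>
    (contDiff_sl hsm z).differentiable (by simp) x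
  have hhe : ∀ x ∈ ball (0 : Space) R,
      Dth (C.θ z) (sl h z) x = -(C.tr M₂ z x * h (z, x)) := fun x hx => by
    have hd : DifferentiableAt ℝ (fun y => S (z, y)) x :=
      differentiableAt_amp (contDiff_sl hS z) x
    have e : Dth (C.θ z) (fun y => S (z, y)) x = ((0 : C3), -C.tr M₂ z x) := by
      simpa using hSe z (ball_subset_ball (min_le_right _ _) hz) x hx
    show Dth (C.θ z) (fun y => Complex.exp (S (z, y)).2) x = _
    rw [Dth_exp (C.θ z) hd.snd, Dth_snd (C.θ z) hd]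
    show Complex.exp (S (z, x)).2 * (Dth (C.θ z) (fun y => S (z, y)) x).2 = _
    rw [e, hh]
    ring
  have hud : ∀ {X : Space → Amp}, Sol M₂ R (C.θ z) X → ∀ x,
      DifferentiableAt ℝ (fun y => crd C z (X y)) x := fun hX x =>
    (C.contDiff_crd contDiff_const hX.smooth).differentiable (by simp) x
  have key : ∀ {u v w : Space → Amp}, Sol M₂ R (C.θ z) u → Sol M₂ R (C.θ z) v →
      Sol M₂ R (C.θ z) w → ∀ x ∈ ball (0 : Space) R, Dth (C.θ z)
        (fun y => h (z, y) * det3 (crd C z (u y)) (crd C z (v y)) (crd C z (w y))) x = 0 :=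
    fun hu hv hw x hx => Dth_det3 (hud hu x) (hud hv x) (hud hw x) (hsd x)
      (C.Dth_crd M₂ z hu hx) (C.Dth_crd M₂ z hv hx) (C.Dth_crd M₂ z hw hx) (hhe x hx)
  refine ⟨key (ho 0).sol (ho 1).sol (ho 2).sol, ho, fun i X hX x hx => ?_, fun x hx v hv => ?_⟩
  · fin_cases i
    · simpa [num, Function.update, hU, sl] using key hX (ho 1).sol (ho 2).sol x hx
    · simpa [num, Function.update, hU, sl] using key (ho 0).sol hX (ho 2).sol x hx
    · simpa [num, Function.update, hU, sl] using key (ho 0).sol (ho 1).sol hX x hx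
  · refine C.crd_inj z (by simp [bdot_smul_right, hv]) ?_ ?_
    · have hp : ∀ i, bdot (C.θ z) (Y i (z, x)).1 = 0 := fun i => (ho i).perp x hx
      simp [Fin.sum_univ_three, bdot_add_right, bdot_smul_right, hp]
    · simp only [← C.crdL_apply z, map_smul, map_sum]
      rw [mul_smul, C.crdL_apply, cramer3, Finset.smul_sum]
      exact Finset.sum_congr rfl fun i _ => by simp [hU, smul_smul]

/-- Families of spanning systems exist near every parameter. -/
theorem Ctx.exists_fam (H : Ctx Ω M₁ M₂ R) (C : Chart) (z₀ : ℂ) :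
    Nonempty (Fam Ω M₁ M₂ R C z₀) := by
  classical
  choose ρ hρ b Y κ hb hb0 hY hκ hprop using
    fun x : closedBall (0 : Space) R => H.exists_block C z₀ x.2
  have hop : ∀ x : closedBall (0 : Space) R, IsOpen {y : Space | b x (z₀, y) ≠ 0} := fun x =>
    isOpen_ne_fun ((hb x).continuous.comp (Continuous.prodMk_right z₀)) continuous_const
  obtain ⟨t, ht⟩ := (isCompact_closedBall (0 : Space) R).elim_finite_subcover _ hop
    fun y hy => mem_iUnion.2 ⟨⟨y, hy⟩, hb0 ⟨y, hy⟩⟩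
  set B : Fin t.card → ℂ × Space → ℂ := fun j => b (t.equivFin.symm j).1 with hB
  set Q : ℂ × Space → ℝ := fun p => ∑ j, Complex.normSq (B j p) with hQ
  have hQc : Continuous Q :=
    continuous_finsetSum _ fun j _ => Complex.continuous_normSq.comp (hb _).continuous
  have hQ0 : ∀ y ∈ closedBall (0 : Space) R, 0 < Q (z₀, y) := fun y hy => by
    obtain ⟨x, hx, hne⟩ := mem_iUnion₂.1 (ht hy)
    refine Finset.sum_pos' (fun j _ => Complex.normSq_nonneg _)
      ⟨t.equivFin ⟨x, hx⟩, Finset.mem_univ _, ?_⟩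
    simpa [hB] using hne
  have hev : ∀ᶠ z in 𝓝 z₀, ∀ y ∈ closedBall (0 : Space) R, 0 < Q (z, y) :=
    (isCompact_closedBall _ _).eventually_forall_of_forall_eventually fun y hy =>
      hQc.continuousAt.eventually (lt_mem_nhds (hQ0 y hy))
  obtain ⟨ρ', hρ', hsub⟩ := Metric.eventually_nhds_iff_ball.1
    (hev.and ((t.finite_toSet.eventually_all (l := 𝓝 z₀)).2 fun x _ =>
      ball_mem_nhds z₀ (hρ x)))
  obtain ⟨χ, hχ, hχ0, hχz⟩ := exists_zero_set (isClosed_closedBall (x := (0 : Space)) (ε := R))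
  obtain ⟨ψ, hψ, hψ0, hψz⟩ := exists_zero_set (isClosed_closedBall (x := z₀) (ε := ρ' / 2))
  set Dn : ℂ × Space → ℂ := fun p =>
    (∑ j, B j p * conj (B j p)) + (χ p.2 : ℂ) + (ψ p.1 : ℂ) with hDn
  have hDne : ∀ p, Dn p ≠ 0 := fun p => by
    have e : Dn p = ((Q p + χ p.2 + ψ p.1 : ℝ) : ℂ) := by simp [hDn, hQ, Complex.mul_conj]
    rw [e]
    refine Complex.ofReal_ne_zero.2 (ne_of_gt ?_)
    have h1 : 0 ≤ Q p := Finset.sum_nonneg fun j _ => Complex.normSq_nonneg _
    rcases (hχ0 p.2).eq_or_lt with h | h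
    · rcases (hψ0 p.1).eq_or_lt with h' | h'
      · have := (hsub p.1 (closedBall_subset_ball (by linarith) ((hψz _).2 h'.symm))).1 p.2
          ((hχz _).2 h.symm)
        linarith
      · linarith
    · linarith [hψ0 p.1]
  have hcj : ∀ j, ContDiff ℝ ∞ fun p => conj (B j p) := fun j =>
    Complex.conjCLE.contDiff.comp (hb _)
  have hDs : ContDiff ℝ ∞ Dn :=
    ((ContDiff.sum fun j _ => (hb _).mul (hcj j)).add
      (Complex.ofRealCLM.contDiff.comp (hχ.comp contDiff_snd))).add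
      (Complex.ofRealCLM.contDiff.comp (hψ.comp contDiff_fst))
  have hz : ∀ z ∈ ball z₀ (ρ' / 2), ∀ j, z ∈ ball z₀ (ρ (t.equivFin.symm j).1) := fun z hz j =>
    (hsub z (ball_subset_ball (by linarith) hz)).2 _ (t.equivFin.symm j).2
  refine ⟨{
    ρ := ρ' / 2, ρ_pos := by positivity, n := t.card
    a := fun j p => conj (B j p) / Dn p, b := B
    Y := fun j => Y (t.equivFin.symm j).1, κ := fun j => κ (t.equivFin.symm j).1
    sma := fun j => by simpa [div_eq_mul_inv] using (hcj j).mul (hDs.inv hDne)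
    smb := fun j => hb _, smY := fun j => hY _, smκ := fun j => hκ _
    closed_b := fun z hzm j => (hprop _ z (hz z hzm j)).1
    orth := fun z hzm j => (hprop _ z (hz z hzm j)).2.1
    closed_κ := fun z hzm j => (hprop _ z (hz z hzm j)).2.2.1
    expand := fun z hzm j => (hprop _ z (hz z hzm j)).2.2.2
    unit := fun z hzm x hx => ?_ }⟩
  have e : Dn (z, x) = ∑ j, B j (z, x) * conj (B j (z, x)) := by
    simp [hDn, (hχz x).1 (ball_subset_closedBall hx), (hψz z).1 (ball_subset_closedBall hzm)]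
  simp only [div_mul_eq_mul_div, ← Finset.sum_div]
  rw [div_eq_one_iff_eq (hDne _), e]
  exact Finset.sum_congr rfl fun j _ => mul_comm _ _

end

end Vale.Agent.P136.Full
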