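import Mathlib
import Vale.Agent.P136.Full.Gauge.Frames

/-!
# P136: Green's identity and the vanishing on multiples of `θ` for the form of a spanning system
-/

open MeasureTheory Filter Set Metric
open scoped ContDiff Topology

namespace Vale.Agent.P136.Full

noncomputable section

theorem dot4_theta (θ : C3) (g : ℂ) (Y : Amp) (hY : bdot θ Y.1 = 0) :
    dot4 ((g • θ, 0) : Amp) Y = 0 := by
  simp [dot4, bdot_smul_left, hY]

theorem Moduli.amatT_theta (M : Moduli) {θ : C3} (hθ : bdot θ θ = 0) (x : Space) (u : ℂ) :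
    M.amatT θ x ((u • θ, 0) : Amp) = ((-(Dth θ M.muC x / (2 * M.muC x)) * u) • θ, 0) := by
  simp [Moduli.amatT, bdot_smul_right, hθ, smul_smul]

variable {Ω : Set Space} {M₁ M₂ : Moduli} {R : ℝ} {θ : C3}

/-- Multiples of `θ` pair trivially. -/
theorem Ctx.P0_theta (H : Ctx Ω M₁ M₂ R) (hθ : IsNull θ) {g : Space → ℂ} (hg : ContDiff ℝ ∞ g)
    {Y : Space → Amp} (hY : OrthY Ω M₁ M₂ θ R Y) :
    P0 Ω M₁ M₂ R θ (fun x => (g x • θ, 0)) Y = 0 := by
  have hq : ContDiff ℝ ∞ fun x => Dth θ M₁.muC x * (2 * M₁.muC x)⁻¹ :=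
    (contDiff_Dth M₁.contDiff_muC θ).mul
      ((contDiff_const.mul M₁.contDiff_muC).inv fun x => mul_ne_zero two_ne_zero (M₁.muC_ne x))
  obtain ⟨⟨ρ, hρ, U, hU, hUe⟩, -⟩ := H.transport (fun _ => θ) contDiff_const (fun _ => hθ)
    (fun p => (Dth θ M₁.muC p.2 * (2 * M₁.muC p.2)⁻¹) • ContinuousLinearMap.id ℂ Amp)
    (fun p => ((0 : C3), g p.2)) ((hq.comp contDiff_snd).smul contDiff_const)
    (contDiff_const.prodMk (hg.comp contDiff_snd)) 0 R
  set u : Space → ℂ := fun x => (U (0, x)).2 with hu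
  have hus : ContDiff ℝ ∞ u := (contDiff_sl hU 0).snd
  have hη : IsAdj M₁ R θ (fun x => (g x • θ, 0)) fun x => (u x • θ, 0) := by
    refine ⟨(hus.smul contDiff_const).prodMk contDiff_const, fun x hx => ?_⟩
    have h := hUe 0 (mem_ball_self hρ) x hx
    have hd : DifferentiableAt ℝ (fun y => U (0, y)) x :=
      differentiableAt_amp (contDiff_sl hU 0) x
    have hDu : Dth θ u x = Dth θ M₁.muC x * (2 * M₁.muC x)⁻¹ * u x + g x := by
      have e := congrArg Prod.snd h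
      rw [← Dth_snd θ hd] at e
      simpa [hu] using e
    have e : (fun y => ((u y • θ, 0) : Amp)) = fun y => u y • ((θ, 0) : Amp) := by
      funext y; simp
    rw [M₁.amatT_theta hθ.1, e, Dth_smul θ (hus.differentiable (by simp) x)
      (differentiableAt_const _), hDu]
    simp only [Dth, pd_const, smul_zero, Finset.sum_const_zero, add_zero, Prod.smul_mk,
      Prod.mk_add_mk]
    rw [← add_smul]
    congr 2
    ring
  rw [H.P0_eq (ξ := fun x => (g x • θ, 0)) hθ ((hg.smul contDiff_const).prodMk contDiff_const) hY hη,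
    Pz]
  refine setIntegral_eq_zero_of_forall_eq_zero fun x hx => ?_
  have hp := hY.perp x (H.mem_ball hx)
  rw [dot4_theta θ _ _ hp, dot4_theta θ _ _ (by
    rw [Prod.fst_sub, bdot_sub_right, M₂.bdot_amat hθ.1, M₁.bdot_amat hθ.1, hp]; ring), add_zero]

namespace Span

variable (S : Span Ω M₁ M₂ R θ)

theorem val_theta (H : Ctx Ω M₁ M₂ R) (hθ : IsNull θ) {f : Space → ℂ} {X : Space → Amp}
    (hf : ContDiff ℝ ∞ f) (hX : ContDiff ℝ ∞ X) : S.val (fun x => (f x • θ, 0)) X = 0 := by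
  refine Finset.sum_eq_zero fun j _ => Finset.sum_eq_zero fun i _ => ?_
  have h := H.P0_theta hθ ((S.contDiff_coef hX j i).mul hf) (S.orth j i)
  simpa [smul_smul] using h

/-- Green's identity. -/
theorem val_green (H : Ctx Ω M₁ M₂ R) (hθ : IsNull θ) {ξ X : Space → Amp} (hξ : ContDiff ℝ ∞ ξ)
    (hX : ContDiff ℝ ∞ X) (hp : ∀ x ∈ ball (0 : Space) R, bdot θ (X x).1 = 0) :
    S.val (fun x => Dth θ ξ x + M₁.amatT θ x (ξ x)) X +
        S.val ξ (fun x => Dth θ X x - M₂.amat θ x (X x)) =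
      ∫ x in Ω, Dth θ (fun y => dot4 (ξ y) (X y)) x := by
  set c : Fin S.n × Fin 3 → Space → ℂ := fun p x => S.a p.1 x * S.κ p.1 p.2 x (X x) with hc
  set Z : Fin S.n × Fin 3 → Space → Amp := fun p => S.Y p.1 p.2 with hZ
  have hcs : ∀ p, ContDiff ℝ ∞ (c p) := fun p => S.contDiff_coef hX p.1 p.2
  have hZs : ∀ p, ContDiff ℝ ∞ (Z p) := fun p => (S.orth p.1 p.2).smooth
  have hZo : ∀ p, Sol M₂ R θ (Z p) := fun p => (S.orth p.1 p.2).sol
  have he : ∀ x ∈ ball (0 : Space) R, X x = ∑ p, c p x • Z p x := fun x hx =>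
    S.expand_sum hx (hp x hx)
  have hd : ∀ p x, DifferentiableAt ℝ (fun y => c p y • Z p y) x := fun p x =>
    differentiableAt_amp (contDiff_smulC (hcs p) (hZs p)) x
  have hξ' : ContDiff ℝ ∞ fun x => Dth θ ξ x + M₁.amatT θ x (ξ x) :=
    (contDiff_Dth hξ θ).add (contDiff_amatT_sl M₁ θ hξ)
  have hX' : ContDiff ℝ ∞ fun x => Dth θ X x - M₂.amat θ x (X x) :=
    (contDiff_Dth hX θ).sub (contDiff_amat_sl M₂ θ hX)
  have he' : ∀ x ∈ ball (0 : Space) R,
      Dth θ X x - M₂.amat θ x (X x) = ∑ p, Dth θ (c p) x • Z p x := fun x hx => by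
    rw [Dth_congr_ball he θ hx, Dth_fsum _ θ fun p _ => hd p x, he x hx, ← M₂.amatL_apply,
      map_sum, ← Finset.sum_sub_distrib]
    refine Finset.sum_congr rfl fun p _ => ?_
    rw [Dth_smul θ ((hcs p).differentiable (by simp) x) (differentiableAt_amp (hZs p) x),
      (hZo p).eqn x hx, map_smul, M₂.amatL_apply]
    abel
  rw [S.val_eq H hθ hξ' hX hcs hZo he, S.val_eq H hθ hξ hX'
    (fun p => contDiff_Dth (hcs p) θ) hZo he', ← Finset.sum_add_distrib]
  have hterm : ∀ p, P0 Ω M₁ M₂ R θ (fun x => c p x • (Dth θ ξ x + M₁.amatT θ x (ξ x))) (Z p) +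
      P0 Ω M₁ M₂ R θ (fun x => Dth θ (c p) x • ξ x) (Z p) =
      ∫ x in Ω, Dth θ (fun y => dot4 (c p y • ξ y) (Z p y)) x := fun p => by
    have hz : OrthY Ω M₁ M₂ θ R (Z p) := S.orth p.1 p.2
    have hs1 := contDiff_smulC (hcs p) hξ'
    have hs2 := contDiff_smulC (contDiff_Dth (hcs p) θ) hξ
    have hsum : ContDiff ℝ ∞
        ((fun x => c p x • (Dth θ ξ x + M₁.amatT θ x (ξ x))) + fun x => Dth θ (c p) x • ξ x) :=
      hs1.add hs2
    have hη : IsAdj M₁ R θ
        ((fun x => c p x • (Dth θ ξ x + M₁.amatT θ x (ξ x))) + fun x => Dth θ (c p) x • ξ x)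
        fun x => c p x • ξ x := by
      refine ⟨contDiff_smulC (hcs p) hξ, fun x _ => ?_⟩
      rw [Dth_smul θ ((hcs p).differentiable (by simp) x) (differentiableAt_amp hξ x),
        M₁.amatT_smul, Pi.add_apply, smul_add]
      abel
    rw [← H.P0_add_left hθ hs1 hs2 hz, H.P0_eq hθ hsum hz hη, Pz]
    refine setIntegral_congr_fun H.open_Ω.measurableSet fun x hx => ?_
    have hdx := differentiableAt_amp (contDiff_smulC (hcs p) hξ) x
    rw [M₁.Dth_dot4_amat θ hdx (differentiableAt_amp hz.smooth x),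
      hz.eqn x (H.mem_ball hx), hη.2 x (H.mem_ball hx)]
  simp only [hterm]
  rw [← integral_finsetSum _ fun p _ => H.int
    (contDiff_Dth (contDiff_dot4 (contDiff_smulC (hcs p) hξ) (hZs p)) θ).continuous]
  refine setIntegral_congr_fun H.open_Ω.measurableSet fun x hx => ?_
  have e : ∀ y ∈ ball (0 : Space) R,
      dot4 (ξ y) (X y) = ∑ p, dot4 (c p y • ξ y) (Z p y) := fun y hy => by
    rw [he y hy, dot4_sum_right]
    simp [dot4_smul_left, dot4_smul_right]
  rw [Dth_congr_ball e θ (H.mem_ball hx), Dth_fsum _ θ fun p _ =>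
    (contDiff_dot4 (contDiff_smulC (hcs p) hξ) (hZs p)).differentiable (by simp) x]

end Span

/-- A spanning system at a point of the null conic. -/
def Ctx.spanAt (H : Ctx Ω M₁ M₂ R) (z : ℂ) : Span Ω M₁ M₂ R (conic z) :=
  (H.exists_fam conicChart z).some.span (mem_ball_self (H.exists_fam conicChart z).some.ρ_pos)

/-- The gauge form. -/
def Ctx.form (H : Ctx Ω M₁ M₂ R) (z : ℂ) (ξ X : Space → Amp) : ℂ := (H.spanAt z).val ξ X

end

end Vale.Agent.P136.Full
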