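import Mathlib
import Vale.Agent.P136.Full.Gauge.Form

/-!
# P136: dependence of the form on the parameter

The form is differentiable in the parameter of a chart, and holomorphic when the chart and the field
are.
-/

open MeasureTheory Filter Set Metric Complex
open scoped ContDiff Topology

namespace Vale.Agent.P136.Full

noncomputable section

theorem contDiff_dot4' {P : Type*} [NormedAddCommGroup P] [NormedSpace ℝ P] {a b : P → Amp}
    (ha : ContDiff ℝ ∞ a) (hb : ContDiff ℝ ∞ b) : ContDiff ℝ ∞ fun p => dot4 (a p) (b p) := by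
  simp only [dot4, bdot, Fin.sum_univ_three]
  fun_prop

theorem cr_dot4 {a b : ℂ → Amp} {z : ℂ} (ha : DifferentiableAt ℝ a z)
    (hb : DifferentiableAt ℝ b z) :
    cr (fun w => dot4 (a w) (b w)) z = dot4 (cr a z) (b z) + dot4 (a z) (cr b z) := by
  have a1 : ∀ k : Fin 3, DifferentiableAt ℝ (fun w => (a w).1 k) z := differentiableAt_pi.1 ha.fst
  have b1 : ∀ k : Fin 3, DifferentiableAt ℝ (fun w => (b w).1 k) z := differentiableAt_pi.1 hb.fst
  set P : Fin 3 → Amp →L[ℂ] ℂ := fun k =>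
    (ContinuousLinearMap.proj (R := ℂ) (φ := fun _ : Fin 3 => ℂ) k).comp
      (ContinuousLinearMap.fst ℂ C3 ℂ) with hP
  have ca : ∀ k, cr (fun w => (a w).1 k) z = (cr a z).1 k := fun k => cr_clm (P k) ha
  have cb : ∀ k, cr (fun w => (b w).1 k) z = (cr b z).1 k := fun k => cr_clm (P k) hb
  have ca2 : cr (fun w => (a w).2) z = (cr a z).2 := cr_clm (ContinuousLinearMap.snd ℂ C3 ℂ) ha
  have cb2 : cr (fun w => (b w).2) z = (cr b z).2 := cr_clm (ContinuousLinearMap.snd ℂ C3 ℂ) hb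
  have hm : ∀ {f g : ℂ → ℂ}, DifferentiableAt ℝ f z → DifferentiableAt ℝ g z →
      cr (fun w => f w * g w) z = cr f z * g z + f z * cr g z := fun hf hg => cr_smul hf hg
  simp only [dot4, bdot_three]
  rw [cr_add ((((a1 0).fun_mul (b1 0)).fun_add ((a1 1).fun_mul (b1 1))).fun_add
      ((a1 2).fun_mul (b1 2))) (ha.snd.fun_mul hb.snd),
    cr_add (((a1 0).fun_mul (b1 0)).fun_add ((a1 1).fun_mul (b1 1))) ((a1 2).fun_mul (b1 2)),
    cr_add ((a1 0).fun_mul (b1 0)) ((a1 1).fun_mul (b1 1)),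
    hm (a1 0) (b1 0), hm (a1 1) (b1 1), hm (a1 2) (b1 2), hm ha.snd hb.snd,
    ca, ca, ca, cb, cb, cb, ca2, cb2]
  ring

/-- The defect of a matrix field along holomorphic directions. -/
theorem Moduli.cr_amat (M : Moduli) {θ : ℂ → C3} {Y : ℂ → Amp} {z₀ : ℂ} (x : Space)
    (hθ : ∀ k, DifferentiableAt ℂ (fun z => θ z k) z₀) (hY : DifferentiableAt ℝ Y z₀) :
    cr (fun z => M.amat (θ z) x (Y z)) z₀ = M.amat (θ z₀) x (cr Y z₀) := by
  have dT : ∀ k : Fin 3, DifferentiableAt ℝ (fun z => M.amatL (Pi.single k 1) x (Y z)) z₀ := fun k =>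
    ((M.amatL (Pi.single k 1) x).restrictScalars ℝ).differentiableAt.comp z₀ hY
  rw [show (fun z => M.amat (θ z) x (Y z)) =
      fun z => ∑ k, θ z k • M.amatL (Pi.single k 1) x (Y z) from funext fun z => M.amat_dir _ x _,
    cr_sum_smul_holo Finset.univ (fun k _ => hθ k)
      (fun k _ => dT k),
    M.amat_dir]
  exact Finset.sum_congr rfl fun k _ => by rw [cr_clm _ hY]; rfl

variable {Ω : Set Space} {M₁ M₂ : Moduli} {R : ℝ}

/-- The form along a family, as an integral. -/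
theorem Ctx.differentiableAt_form (H : Ctx Ω M₁ M₂ R) (C : Chart) (z₀ : ℂ) {ξ : Space → Amp}
    (hξ : ContDiff ℝ ∞ ξ) {X : ℂ × Space → Amp} (hX : ContDiff ℝ ∞ X)
    (hp : ∀ z x, bdot (C.θ z) (X (z, x)).1 = 0) {g : ℂ → ℂ}
    (hg : ∀ z (S : Span Ω M₁ M₂ R (C.θ z)), g z = S.val ξ (sl X z)) :
    DifferentiableAt ℝ g z₀ ∧
      ((∀ k, Differentiable ℂ fun z => C.θ z k) → (∀ x, Differentiable ℂ fun z => X (z, x)) →
        DifferentiableAt ℂ g z₀) := by
  obtain ⟨F⟩ := H.exists_fam C z₀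
  set c : Fin F.n × Fin 3 → ℂ × Space → ℂ := fun p q => F.a p.1 q * F.κ p.1 p.2 q (X q) with hc
  set Z : Fin F.n × Fin 3 → ℂ × Space → Amp := fun p => F.Y p.1 p.2 with hZ
  have hcs : ∀ p, ContDiff ℝ ∞ (c p) := fun p => (F.sma p.1).mul (F.smκ p.1 p.2 X hX)
  have hZs : ∀ p, ContDiff ℝ ∞ (Z p) := fun p => F.smY p.1 p.2
  set σ : Fin F.n × Fin 3 → ℂ × Space → Amp := fun p q => c p q • ξ q.2 with hσ
  have hσs : ∀ p, ContDiff ℝ ∞ (σ p) := fun p => (hcs p).smul (hξ.comp contDiff_snd)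
  have hadj : ∀ p, ∃ ρ > 0, ∃ η : ℂ × Space → Amp, ContDiff ℝ ∞ η ∧ ∀ z ∈ ball z₀ ρ,
      IsAdj M₁ R (C.θ z) (sl (σ p) z) (sl η z) := fun p => by
    have hθ : ContDiff ℝ ∞ fun q : ℂ × Space => C.θ q.1 := C.smθ.comp contDiff_fst
    have hN : ContDiff ℝ ∞ fun q : ℂ × Space => -M₁.amatTL (C.θ q.1) q.2 :=
      (M₁.contDiff_amatTL hθ contDiff_snd).neg
    obtain ⟨⟨ρ, hρ, η, hη, hηe⟩, -⟩ := H.transport C.θ C.smθ C.null
      (fun q => -M₁.amatTL (C.θ q.1) q.2) (σ p) hN (hσs p) z₀ R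
    refine ⟨ρ, hρ, η, hη, fun z hz => ⟨contDiff_sl hη z, fun x hx => ?_⟩⟩
    have h := hηe z hz x hx
    simp only [neg_apply, Moduli.amatTL_apply] at h
    show Dth (C.θ z) (fun y => η (z, y)) x + M₁.amatT (C.θ z) x (η (z, x)) = σ p (z, x)
    rw [h]; abel
  choose r hr η hη hηa using hadj
  set ψ : Fin F.n × Fin 3 → ℂ × Space → ℂ := fun p q => dot4 (σ p q) (Z p q) +
    dot4 (η p q) (M₂.amat (C.θ q.1) q.2 (Z p q) - M₁.amat (C.θ q.1) q.2 (Z p q)) with hψ
  have hψs : ∀ p, ContDiff ℝ ∞ (ψ p) := fun p => by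
    have h1 := (M₂.contDiff_amat (C.smθ.comp contDiff_fst) contDiff_snd (hZs p)).sub
      (M₁.contDiff_amat (C.smθ.comp contDiff_fst) contDiff_snd (hZs p))
    exact (contDiff_dot4' (hσs p) (hZs p)).add (contDiff_dot4' (hη p) h1)
  set Ψ : ℂ × Space → ℂ := fun q => ∑ p, ψ p q with hΨ
  have hΨs : ContDiff ℝ ∞ Ψ := ContDiff.sum fun p _ => hψs p
  have hev : ∀ᶠ z in 𝓝 z₀, z ∈ ball z₀ F.ρ ∧ ∀ p, z ∈ ball z₀ (r p) :=
    (show ∀ᶠ z in 𝓝 z₀, z ∈ ball z₀ F.ρ from ball_mem_nhds z₀ F.ρ_pos).and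
      (eventually_all.2 fun p => ball_mem_nhds z₀ (hr p))
  have hgΨ : g =ᶠ[𝓝 z₀] fun z => ∫ x in Ω, Ψ (z, x) := hev.mono fun z hz => by
    rw [hg z (F.span hz.1)]
    show _ = ∫ x in Ω, ∑ p, ψ p (z, x)
    have hi : ∀ p ∈ Finset.univ, IntegrableOn (fun x => ψ p (z, x)) Ω := fun p _ =>
      H.int (contDiff_sl (hψs p) z).continuous
    rw [integral_finsetSum _ hi, Fintype.sum_prod_type]
    exact Finset.sum_congr rfl fun j _ => Finset.sum_congr rfl fun i _ =>
      H.P0_eq (ξ := sl (σ (j, i)) z) (C.null z) (contDiff_sl (hσs (j, i)) z)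
        (F.orth z hz.1 j i) (hηa (j, i) z (hz.2 (j, i)))
  have hmeas := H.open_Ω.measurableSet
  have hdg : DifferentiableAt ℝ g z₀ :=
    (hasFDerivAt_integral H.bounded hmeas hΨs z₀).differentiableAt.congr_of_eventuallyEq hgΨ
  refine ⟨hdg, fun hθh hXh => differentiableAt_complex_iff_differentiableAt_real.2 ⟨hdg, ?_⟩⟩
  refine sub_eq_zero.1 ?_
  show cr g z₀ = 0
  have hθ₀ : ∀ k, DifferentiableAt ℂ (fun z => C.θ z k) z₀ := fun k => hθh k z₀
  set S := F.span (mem_ball_self F.ρ_pos) with hS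
  -- the defects of the amplitudes solve the second system
  have hZ' : ∀ p, Sol M₂ R (C.θ z₀) (sl (crP (Z p)) z₀) := fun p => by
    refine ⟨contDiff_sl (contDiff_crP (hZs p)) z₀, fun x hx => ?_, fun x hx => ?_⟩
    · have hd : ∀ k : Fin 3, DifferentiableAt ℝ (fun z => (Z p (z, x)).1 k) z₀ :=
        differentiableAt_pi.1 ((contDiff_par (hZs p) x).differentiable (by simp) z₀).fst
      have h := cr_congr (f := fun z => bdot (C.θ z) (Z p (z, x)).1) (g := fun _ => (0 : ℂ))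
        (hev.mono fun z hz => (F.orth z hz.1 p.1 p.2).perp x hx)
      rw [cr_const] at h
      simp only [bdot] at h
      have h' := cr_sum_smul_holo (a := fun k z => C.θ z k) (f := fun k z => (Z p (z, x)).1 k)
        Finset.univ (z := z₀) (fun k _ => hθ₀ k) fun k _ => hd k
      simp only [smul_eq_mul] at h'
      rw [h'] at h
      refine Eq.trans ?_ h
      show ∑ k, C.θ z₀ k * (crP (Z p) (z₀, x)).1 k = _
      refine Finset.sum_congr rfl fun k _ => congrArg _ ?_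
      exact (cr_clm ((ContinuousLinearMap.proj (R := ℂ) (φ := fun _ : Fin 3 => ℂ) k).comp
        (ContinuousLinearMap.fst ℂ C3 ℂ)) ((contDiff_par (hZs p) x).differentiable (by simp) z₀)).symm
    · have h := cr_eqn (L := fun θ x Y => -M₂.amat θ x Y) (f := fun _ => 0) hθ₀
        (fun θ x Y Y' => by simp only [M₂.amat_add, neg_add])
        (fun θ x a Y => by simp only [M₂.amat_smul, smul_neg])
        (fun θ x Y => by
          simp only [smul_neg, Finset.sum_neg_distrib]; rw [← M₂.amat_dir])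
        (hZs p) contDiff_const (x := x) (hev.mono fun z hz => by
          show Dth (C.θ z) (sl (F.Y p.1 p.2) z) x + -M₂.amat (C.θ z) x (F.Y p.1 p.2 (z, x)) = 0
          rw [(F.orth z hz.1 p.1 p.2).eqn x hx, sl, add_neg_cancel])
      have h0 : crP (fun _ : ℂ × Space => (0 : Amp)) (z₀, x) = 0 := cr_const _ _
      rw [h0, ← sub_eq_add_neg] at h
      exact sub_eq_zero.1 h
  have hη' : ∀ p, IsAdj M₁ R (C.θ z₀) (sl (crP (σ p)) z₀) (sl (crP (η p)) z₀) := fun p =>
    ⟨contDiff_sl (contDiff_crP (hη p)) z₀, fun x hx =>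
      cr_eqn (L := fun θ x Y => M₁.amatT θ x Y) hθ₀ (fun θ x Y Y' => M₁.amatT_add θ x Y Y')
        (fun θ x a Y => M₁.amatT_smul θ x a Y) (fun θ x Y => M₁.amatT_dir θ x Y)
        (hη p) (hσs p) (hev.mono fun z hz => (hηa p z (hz.2 p)).2 x hx)⟩
  have hσ' : ∀ p x, crP (σ p) (z₀, x) = crP (c p) (z₀, x) • ξ x := fun p x => by
    show cr (fun z => c p (z, x) • ξ x) z₀ = cr (fun z => c p (z, x)) z₀ • ξ x
    rw [cr_smul ((contDiff_par (hcs p) x).differentiable (by simp) z₀)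
      (differentiableAt_const _), cr_const, smul_zero, add_zero]
  have hc' : ∀ p, ContDiff ℝ ∞ (sl (crP (c p)) z₀) := fun p => contDiff_sl (contDiff_crP (hcs p)) z₀
  have hψ' : ∀ p, ∫ x in Ω, crP (ψ p) (z₀, x) =
      P0 Ω M₁ M₂ R (C.θ z₀) (fun x => sl (crP (c p)) z₀ x • ξ x) (sl (Z p) z₀) +
      P0 Ω M₁ M₂ R (C.θ z₀) (fun x => sl (c p) z₀ x • ξ x) (sl (crP (Z p)) z₀) := fun p => by
    have hn := C.null z₀
    have e1 : sl (crP (σ p)) z₀ = fun x => sl (crP (c p)) z₀ x • ξ x := funext (hσ' p)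
    have hs1 : ContDiff ℝ ∞ (sl (crP (σ p)) z₀) := contDiff_sl (contDiff_crP (hσs p)) z₀
    have hs2 : ContDiff ℝ ∞ (sl (σ p) z₀) := contDiff_sl (hσs p) z₀
    rw [← e1, show (fun x => sl (c p) z₀ x • ξ x) = sl (σ p) z₀ from rfl,
      H.P0_eq hn hs1 (F.orth z₀ (mem_ball_self F.ρ_pos) p.1 p.2) (hη' p),
      H.P0_eq hn hs2 (S.orth_of_sol H hn (hZ' p)) (hηa p z₀ (mem_ball_self (hr p))), Pz, Pz,
      ← integral_add
        (H.int (continuous_pzInt (C.θ z₀) (hη' p).1 hs1 (contDiff_sl (hZs p) z₀)))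
        (H.int (continuous_pzInt (C.θ z₀) (contDiff_sl (hη p) z₀) hs2 (hZ' p).smooth))]
    refine setIntegral_congr_fun hmeas fun x _ => ?_
    have dσ := (contDiff_par (hσs p) x).differentiable (by simp) z₀
    have dη := (contDiff_par (hη p) x).differentiable (by simp) z₀
    have dZ := (contDiff_par (hZs p) x).differentiable (by simp) z₀
    have dA : ∀ M : Moduli, DifferentiableAt ℝ (fun z => M.amat (C.θ z) x (Z p (z, x))) z₀ :=
      fun M => (M.contDiff_amat C.smθ contDiff_const (contDiff_par (hZs p) x)).differentiable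
        (by simp) z₀
    show cr (fun z => dot4 (σ p (z, x)) (Z p (z, x)) + dot4 (η p (z, x))
      (M₂.amat (C.θ z) x (Z p (z, x)) - M₁.amat (C.θ z) x (Z p (z, x)))) z₀ = _
    rw [cr_add ((contDiff_dot4' (contDiff_par (hσs p) x) (contDiff_par (hZs p) x)).differentiable
        (by simp) z₀)
      ((contDiff_dot4' (contDiff_par (hη p) x)
        ((M₂.contDiff_amat C.smθ contDiff_const (contDiff_par (hZs p) x)).sub
          (M₁.contDiff_amat C.smθ contDiff_const (contDiff_par (hZs p) x)))).differentiable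
        (by simp) z₀),
      cr_dot4 dσ dZ, cr_dot4 dη ((dA M₂).fun_sub (dA M₁)), cr_sub (dA M₂) (dA M₁),
      M₂.cr_amat x hθ₀ dZ, M₁.cr_amat x hθ₀ dZ]
    simp only [sl, crP]
    ring
  rw [cr_congr hgΨ, cr_integral H.bounded hmeas hΨs]
  have hcr : ∀ x, crP Ψ (z₀, x) = ∑ p, crP (ψ p) (z₀, x) := fun x =>
    cr_sum Finset.univ fun p _ => (contDiff_par (hψs p) x).differentiable (by simp) z₀
  simp only [hcr]
  have hi : ∀ p ∈ Finset.univ, IntegrableOn (fun x => crP (ψ p) (z₀, x)) Ω := fun p _ =>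
    H.int (contDiff_sl (contDiff_crP (hψs p)) z₀).continuous
  rw [integral_finsetSum _ hi]
  simp only [hψ', Finset.sum_add_distrib]
  have key := S.val_eq H (C.null z₀) (X := fun _ => (0 : Amp)) hξ contDiff_const
    (c := Sum.elim (fun p => sl (crP (c p)) z₀) (fun p => sl (c p) z₀))
    (Z := Sum.elim (fun p => sl (Z p) z₀) (fun p => sl (crP (Z p)) z₀))
    (fun l => l.rec hc' fun p => contDiff_sl (hcs p) z₀)
    (fun l => l.rec (fun p => (F.orth z₀ (mem_ball_self F.ρ_pos) p.1 p.2).sol) hZ')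
    (fun x hx => ?_)
  · simp only [Fintype.sum_sum_type, Sum.elim_inl, Sum.elim_inr] at key
    rw [← key]
    simpa using S.val_smul_right H (C.null z₀) 0 hξ (X := fun _ => (0 : Amp)) contDiff_const
  · have h := cr_congr (f := fun z => X (z, x)) (g := fun z => ∑ p, c p (z, x) • Z p (z, x))
      (hev.mono fun z hz => (F.span hz.1).expand_sum hx (hp z x))
    rw [cr_holo (hXh x z₀), cr_sum Finset.univ (f := fun p z => c p (z, x) • Z p (z, x))
      fun p _ => ((contDiff_par (hcs p) x).differentiable (by simp) z₀).fun_smul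
        ((contDiff_par (hZs p) x).differentiable (by simp) z₀)] at h
    rw [h, Fintype.sum_sum_type]
    simp only [Sum.elim_inl, Sum.elim_inr, sl, crP, ← Finset.sum_add_distrib]
    exact Finset.sum_congr rfl fun p _ =>
      cr_smul ((contDiff_par (hcs p) x).differentiable (by simp) z₀)
        ((contDiff_par (hZs p) x).differentiable (by simp) z₀)

end

end Vale.Agent.P136.Full
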