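import Mathlib
import Vale.Agent.P136.Full.Gauge.Family

/-!
# P136: the gauge (module H)
-/

open MeasureTheory Filter Set Metric Complex
open scoped ContDiff Topology

namespace Vale.Agent.P136.Full

noncomputable section

variable {Ω : Set Space} {M₁ M₂ : Moduli} {R : ℝ}

theorem Ctx.form_eq (H : Ctx Ω M₁ M₂ R) {θ : C3} {z : ℂ} (hθ : conic z = θ)
    (S : Span Ω M₁ M₂ R θ) {ξ X : Space → Amp} (hξ : ContDiff ℝ ∞ ξ) (hX : ContDiff ℝ ∞ X)
    (hp : ∀ x ∈ ball (0 : Space) R, bdot θ (X x).1 = 0) : H.form z ξ X = S.val ξ X := by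
  subst hθ
  exact (H.spanAt z).val_indep H (isNull_conic z) S hξ hX hp

/-- A spanning system in the chart near infinity. -/
def Ctx.flipSpan (H : Ctx Ω M₁ M₂ R) (w : ℂ) : Span Ω M₁ M₂ R (flipChart.θ w) :=
  (H.exists_fam flipChart w).some.span (mem_ball_self (H.exists_fam flipChart w).some.ρ_pos)

/-- The form near infinity. -/
theorem Ctx.form_inv (H : Ctx Ω M₁ M₂ R) {z : ℂ} (hz : z ≠ 0) {ξ X : Space → Amp}
    (hξ : ContDiff ℝ ∞ ξ) (hX : ContDiff ℝ ∞ X)
    (hp : ∀ x, bdot (flipChart.θ z⁻¹) (X x).1 = 0) :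
    H.form z ξ X = (H.flipSpan z⁻¹).val ξ X := by
  have hc : (-z ^ 2 : ℂ) ≠ 0 := neg_ne_zero.2 (pow_ne_zero 2 hz)
  rw [H.form_eq (θ := (-z ^ 2) • flipChart.θ z⁻¹) (conic_inv hz) ((H.flipSpan z⁻¹).scale hc) hξ hX
    (fun x _ => by rw [bdot_smul_left, hp x, mul_zero]),
    (H.flipSpan z⁻¹).scale_val H (flipChart.null _) hc hξ hX]

theorem bdot_flip_eps (a : Fin 2) (w : ℂ) : bdot (flipChart.θ w) (flip3 (eps a w)) = 0 := by
  show bdot (flip3 (conic w)) _ = 0
  rw [bdot_flip3, flip3_flip3]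
  exact bdot_conic_eps a w

theorem contDiff_vecField {v : ℂ → C3} (hv : ContDiff ℝ ∞ v) :
    ContDiff ℝ ∞ fun p : ℂ × Space => ((v p.1, 0) : Amp) :=
  (hv.comp contDiff_fst).prodMk contDiff_const

theorem Ctx.analytic_vec (H : Ctx Ω M₁ M₂ R) {ξ : Space → Amp} (hξ : ContDiff ℝ ∞ ξ) (a : Fin 2) :
    Differentiable ℂ fun z => H.form z ξ fun _ => (eps a z, 0) := fun z₀ =>
  (H.differentiableAt_form conicChart z₀ hξ (contDiff_vecField (contDiff_eps a))
    (fun z _ => bdot_conic_eps a z) (g := fun z => H.form z ξ fun _ => (eps a z, 0))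
    fun _ S => H.form_eq rfl S hξ contDiff_const fun _ _ => bdot_conic_eps a _).2
      differentiable_conic fun _ => (differentiable_eps a).prodMk (differentiable_const _)

theorem Ctx.analytic_sca (H : Ctx Ω M₁ M₂ R) {ξ : Space → Amp} (hξ : ContDiff ℝ ∞ ξ) :
    Differentiable ℂ fun z => H.form z ξ fun _ => (0, 1) := fun z₀ =>
  (H.differentiableAt_form conicChart z₀ hξ (X := fun _ => ((0 : C3), (1 : ℂ))) contDiff_const
    (fun _ _ => bdot_zero_right _) (g := fun z => H.form z ξ fun _ => (0, 1))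
    fun _ S => H.form_eq rfl S hξ contDiff_const fun _ _ => bdot_zero_right _).2
      differentiable_conic fun _ => differentiable_const _

theorem Ctx.continuous_flip (H : Ctx Ω M₁ M₂ R) {ξ : Space → Amp} (hξ : ContDiff ℝ ∞ ξ)
    {X : ℂ × Space → Amp} (hX : ContDiff ℝ ∞ X)
    (hp : ∀ w x, bdot (flipChart.θ w) (X (w, x)).1 = 0) :
    Continuous fun w => (H.flipSpan w).val ξ (sl X w) :=
  continuous_iff_continuousAt.2 fun w₀ =>
    (H.differentiableAt_form flipChart w₀ hξ hX hp (g := fun w => (H.flipSpan w).val ξ (sl X w))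
      fun w S => (H.flipSpan w).val_indep H (flipChart.null w) S hξ (contDiff_sl hX w)
        fun x _ => hp w x).1.continuousAt

theorem Ctx.growth_vec (H : Ctx Ω M₁ M₂ R) {ξ : Space → Amp} (hξ : ContDiff ℝ ∞ ξ) (a : Fin 2) :
    ∃ C : ℝ, ∀ z, ‖H.form z ξ fun _ => (eps a z, 0)‖ ≤ C * (1 + ‖z‖) := by
  have hg := (H.continuous_flip hξ (contDiff_vecField (contDiff_flip3.comp (contDiff_eps (1 - a))))
    fun w _ => bdot_flip_eps _ w)
  obtain ⟨C₁, h₁⟩ := (isCompact_closedBall (0 : ℂ) 1).exists_bound_of_continuousOn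
    (H.analytic_vec hξ a).continuous.continuousOn
  obtain ⟨C₂, h₂⟩ := (isCompact_closedBall (0 : ℂ) 1).exists_bound_of_continuousOn hg.continuousOn
  refine ⟨max C₁ C₂, fun z => ?_⟩
  have hC : 0 ≤ max C₁ C₂ :=
    ((norm_nonneg _).trans (h₁ 0 (mem_closedBall_self zero_le_one))).trans (le_max_left _ _)
  rcases le_or_gt ‖z‖ 1 with hz | hz
  · refine ((h₁ z (by simpa using hz)).trans (le_max_left _ C₂)).trans ?_
    exact le_mul_of_one_le_right hC (by linarith [norm_nonneg z])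
  · have hz0 : z ≠ 0 := norm_pos_iff.1 (by linarith)
    have hw : z⁻¹ ∈ closedBall (0 : ℂ) 1 := by
      simpa using inv_le_one_of_one_le₀ hz.le
    have e : (fun _ : Space => ((eps a z, 0) : Amp)) =
        fun _ => z • ((flip3 (eps (1 - a) z⁻¹), 0) : Amp) := by
      funext x; rw [eps_inv a hz0]; simp
    rw [e, H.form_inv hz0 hξ contDiff_const fun _ => by
        simp [bdot_smul_right, bdot_flip_eps],
      (H.flipSpan z⁻¹).val_smul_right H (flipChart.null _) z hξ contDiff_const, norm_mul]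
    calc ‖z‖ * _ ≤ ‖z‖ * max C₁ C₂ :=
          mul_le_mul_of_nonneg_left ((h₂ _ hw).trans (le_max_right _ _)) (norm_nonneg z)
      _ ≤ max C₁ C₂ * (1 + ‖z‖) := by linarith [mul_comm ‖z‖ (max C₁ C₂)]

theorem Ctx.growth_sca (H : Ctx Ω M₁ M₂ R) {ξ : Space → Amp} (hξ : ContDiff ℝ ∞ ξ) :
    ∃ C : ℝ, ∀ z, ‖H.form z ξ fun _ => (0, 1)‖ ≤ C := by
  have hg := H.continuous_flip hξ (X := fun _ => ((0 : C3), (1 : ℂ))) contDiff_const
    fun w _ => bdot_zero_right _
  obtain ⟨C₁, h₁⟩ := (isCompact_closedBall (0 : ℂ) 1).exists_bound_of_continuousOn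
    (H.analytic_sca hξ).continuous.continuousOn
  obtain ⟨C₂, h₂⟩ := (isCompact_closedBall (0 : ℂ) 1).exists_bound_of_continuousOn hg.continuousOn
  refine ⟨max C₁ C₂, fun z => ?_⟩
  rcases le_or_gt ‖z‖ 1 with hz | hz
  · exact (h₁ z (by simpa using hz)).trans (le_max_left _ _)
  · have hz0 : z ≠ 0 := norm_pos_iff.1 (by linarith)
    rw [H.form_inv hz0 hξ contDiff_const fun _ => bdot_zero_right _]
    exact (h₂ z⁻¹ (by simpa using inv_le_one_of_one_le₀ hz.le)).trans (le_max_right _ _)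

/-- Module H: orthogonality gives the gauge. -/
theorem gauge (hT : TransportStmt) : GaugeStmt := by
  intro Ω M₁ M₂ R hΩ hR hO
  have H : Ctx Ω M₁ M₂ R := ⟨hΩ, hR, hT, hO⟩
  exact ⟨{
    G := H.form
    add_left := fun z ξ ξ' X hξ hξ' hX _ =>
      (H.spanAt z).val_add_left H (isNull_conic z) hξ hξ' hX
    add_right := fun z ξ X X' hξ hX hX' _ _ =>
      (H.spanAt z).val_add_right H (isNull_conic z) hξ hX hX'
    move := fun z f ξ X _ _ _ _ => (H.spanAt z).val_move f ξ X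
    smul_left := fun z a ξ X hξ hX _ => (H.spanAt z).val_smul_left H (isNull_conic z) a hξ hX
    theta_left := fun z f X hf hX _ => (H.spanAt z).val_theta H (isNull_conic z) hf hX
    green := fun z ξ X hξ hX hp =>
      (H.spanAt z).val_green H (isNull_conic z) hξ hX fun x _ => hp x
    analytic_vec := fun ξ hξ a => H.analytic_vec hξ a
    analytic_sca := fun ξ hξ => H.analytic_sca hξ
    growth_vec := fun ξ hξ a => H.growth_vec hξ a
    growth_sca := fun ξ hξ => H.growth_sca hξ }⟩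

end

end Vale.Agent.P136.Full
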